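import Vale.Agent.P165.H199.Blocks

/-!
The mean-field lower bound `θ_x(p) ≥ c (p - p_c)` on quasi-transitive graphs.
-/

open Finset MeasureTheory ProbabilityTheory
open scoped ENNReal

set_option linter.unusedSectionVars false

namespace Vale.Agent.P165.H115

open Vale.Agent.P151 (Ex Cn cl csz edgesIn EV con tau)
open Vale.Agent.P165.LF Vale.Agent.P165.H794 Vale.Agent.P165.H199

variable {V : Type} [DecidableEq V] {G : SimpleGraph V}

/-- At `p_c < 1` some vertex has all its Duminil-Copin and Tassion functionals above `1/2`. -/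
theorem exists_phi_big [G.LocallyFinite] [Infinite V] (hG : G.Connected)
    (hqt : IsQuasiTransitive G) (hpc1 : pc G < 1) :
    ∃ o : V, ∀ S : Finset V, o ∈ S → 1 / 2 ≤ shPhi G (pc G) o S := by
  classical
  by_contra hcon
  push Not at hcon
  have h0 : 0 ≤ pc G := (pc_pos hG hqt).le
  have hne : Nonempty V := hG.nonempty
  have hK : ∃ K : ℕ, ∀ x : V, ∃ S : Finset V, x ∈ S ∧ S.card ≤ K ∧
      ∑ a ∈ S, ((G.neighborFinset a \ S).card : ℝ) ≤ K ∧
      ∑ a ∈ S, Ex (pc G) (edgesIn G S) (con x a) * ((G.neighborFinset a \ S).card : ℝ) ≤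
        1 / 2 := by
    obtain ⟨R, hR⟩ := hqt
    choose S hS1 hS2 using hcon
    refine ⟨∑ y ∈ R, ((S y).card + ∑ a ∈ S y, (G.neighborFinset a \ S y).card), fun x => ?_⟩
    obtain ⟨y, hy, g, rfl⟩ := hR x
    have hle : (S y).card + ∑ a ∈ S y, (G.neighborFinset a \ S y).card ≤
        ∑ y ∈ R, ((S y).card + ∑ a ∈ S y, (G.neighborFinset a \ S y).card) :=
      Finset.single_le_sum
        (f := fun y => (S y).card + ∑ a ∈ S y, (G.neighborFinset a \ S y).card)
        (fun _ _ => Nat.zero_le _) hy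
    refine ⟨(S y).image g, Finset.mem_image_of_mem _ (hS1 y), ?_, ?_, ?_⟩
    · rw [Finset.card_image_of_injective _ g.injective]
      omega
    · rw [Finset.sum_image fun a _ b _ h => g.injective h]
      simp only [sh_nbr]
      have : ∑ a ∈ S y, (G.neighborFinset a \ S y).card ≤
          ∑ y ∈ R, ((S y).card + ∑ a ∈ S y, (G.neighborFinset a \ S y).card) := by omega
      exact_mod_cast this
    · exact ((sh_phi_aut G g (pc G) y (S y)).trans_lt (hS2 y)).le
  obtain ⟨K, hK⟩ := hK
  obtain ⟨lam, C, hl, hC, h⟩ := exp_moment G h0 hpc1.le hK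
  have hs : Sub G (pc G) := sub_of_exp_moment G h0 hpc1.le hl h
  obtain ⟨d, hd1, hd⟩ := LF.exists_degree_bound (G := G) hqt
  have hX := one_le_chi h0 hpc1.le hs
  have hd1' : (1 : ℝ) ≤ d := by exact_mod_cast hd1
  have hX0 : 0 < chi G (pc G) := by linarith only [hX]
  set δ := (1 - pc G) / (2 * d * chi G (pc G)) with hδ
  have hp : 0 < 2 * d * chi G (pc G) := by positivity
  have hp2 : 1 ≤ 2 * d * chi G (pc G) := by nlinarith only [hd1', hX]
  have h1q : 0 < 1 - pc G := by linarith only [hpc1]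
  have hδ0 : 0 < δ := div_pos h1q hp
  have hδ1 : δ ≤ 1 - pc G := div_le_self h1q.le hp2
  have h2 : Sub G (pc G + δ) := by
    refine sub_extend hd h0 (by linarith only [hδ0]) hpc1 (by linarith only [hδ1]) hs ?_
    rw [add_sub_cancel_left, hδ]
    have : (1 - pc G) / (2 * d * chi G (pc G)) / (1 - pc G) * d * chi G (pc G) = 1 / 2 := by
      field_simp
    exact this.le
  have h3 := le_pc_of_sub hG (by linarith only [hδ1]) h2
  linarith only [h3, hδ0]

theorem shPhi_image [G.LocallyFinite] (g : G ≃g G) {q c : ℝ} {o : V}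
    (h : ∀ S : Finset V, o ∈ S → c ≤ shPhi G q o S) (S : Finset V) (hS : g o ∈ S) :
    c ≤ shPhi G q (g o) S := by
  have e : S = (S.image g.symm).image g := by
    ext v
    simp only [Finset.mem_image]
    constructor
    · intro hv
      exact ⟨g.symm v, ⟨v, hv, rfl⟩, by simp⟩
    · rintro ⟨_, ⟨u, hu, rfl⟩, rfl⟩
      simpa using hu
  rw [e, sh_phi_aut]
  refine h _ (Finset.mem_image.2 ⟨g o, hS, by simp⟩)

/-- Probability of connection to the complement of `L`. -/
noncomputable def cr (G : SimpleGraph V) [G.LocallyFinite] (p : ℝ) (L : Finset V) (x : V) : ℝ :=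
  FV.Ex p (FV.touch G L) (fun B => FV.ind (FV.crossing x L B))

theorem cr_nonneg [G.LocallyFinite] {p : ℝ} (h0 : 0 ≤ p) (h1 : p ≤ 1) (L : Finset V) (x : V) :
    0 ≤ cr G p L x := FV.Ex_nonneg h0 h1 fun _ _ => FV.ind_nonneg _

theorem cr_le_one [G.LocallyFinite] {p : ℝ} (h0 : 0 ≤ p) (h1 : p ≤ 1) (L : Finset V) (x : V) :
    cr G p L x ≤ 1 := by
  have h := FV.Ex_mono h0 h1 (E := FV.touch G L) (f := fun B => FV.ind (FV.crossing x L B))
    (g := fun _ => 1) fun _ _ => FV.ind_le_one _
  rwa [FV.Ex_const] at h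

theorem cr_of_notMem [G.LocallyFinite] (p : ℝ) {L : Finset V} {x : V} (hx : x ∉ L) :
    cr G p L x = 1 := by
  unfold cr
  rw [← FV.Ex_const p (FV.touch G L) 1]
  exact FV.Ex_congr fun B _ => FV.ind_of ⟨x, hx, FV.Rch.refl B x⟩

theorem cr_step [G.LocallyFinite] {p : ℝ} (h0 : 0 ≤ p) (h1 : p ≤ 1) {x y : V} (hxy : G.Adj x y)
    (L : Finset V) : p * cr G p L y ≤ cr G p L x := by
  by_cases hx : x ∈ L
  · have he : s(x, y) ∈ FV.touch G L := FV.mem_touch.2 ⟨x, hx, Sym2.mem_mk_left x y, hxy⟩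
    unfold cr
    rw [FV.Ex_erase p he (fun B => FV.ind (FV.crossing x L B)),
      FV.Ex_erase p he (fun B => FV.ind (FV.crossing y L B))]
    set E := (FV.touch G L).erase s(x, y)
    have a1 : FV.Ex p E (fun B => FV.ind (FV.crossing y L B)) ≤
        FV.Ex p E (fun B => FV.ind (FV.crossing y L (insert s(x, y) B))) :=
      FV.Ex_mono h0 h1 fun B _ => FV.ind_mono fun h => h.mono (Finset.subset_insert _ _)
    have a2 : FV.Ex p E (fun B => FV.ind (FV.crossing y L (insert s(x, y) B))) ≤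
        FV.Ex p E (fun B => FV.ind (FV.crossing x L (insert s(x, y) B))) :=
      FV.Ex_mono h0 h1 fun B _ => FV.ind_mono fun ⟨z, hz, hyz⟩ =>
        ⟨z, hz, (FV.Rch.of_mem (Finset.mem_insert_self _ _)).trans hyz⟩
    have a3 : 0 ≤ FV.Ex p E (fun B => FV.ind (FV.crossing x L B)) :=
      FV.Ex_nonneg h0 h1 fun _ _ => FV.ind_nonneg _
    have h1p : 0 ≤ 1 - p := sub_nonneg.2 h1
    have a4 := mul_le_mul_of_nonneg_left a1 h1p
    have a5 := mul_nonneg h1p a3
    have a6 := mul_le_mul_of_nonneg_left a2 h0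
    have a7 := mul_le_mul_of_nonneg_left a4 h0
    nlinarith only [a5, a6, a7]
  · rw [cr_of_notMem p hx]
    have h2 := cr_le_one (G := G) h0 h1 L y
    have h3 := mul_le_mul_of_nonneg_left h2 h0
    linarith only [h3, h1]

theorem cr_walk [G.LocallyFinite] {p : ℝ} (h0 : 0 ≤ p) (h1 : p ≤ 1) (L : Finset V) {x y : V}
    (w : G.Walk x y) : p ^ w.length * cr G p L y ≤ cr G p L x := by
  induction w with
  | nil => simp
  | @cons a b c h w ih =>
    rw [SimpleGraph.Walk.length_cons, pow_succ]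
    have h2 := cr_step h0 h1 h L
    have h3 := mul_le_mul_of_nonneg_left ih h0
    linarith only [h2, h3]

theorem exp_bound {s : ℝ} (h0 : 0 ≤ s) (h1 : s ≤ 1) : s / 2 ≤ 1 - Real.exp (-s) := by
  have h2 : 1 + s ≤ Real.exp s := by linarith only [Real.add_one_le_exp s]
  have h3 : 0 < 1 + s := by linarith only [h0]
  have h4 : Real.exp (-s) ≤ 1 / (1 + s) := by
    rw [Real.exp_neg, ← one_div]
    exact one_div_le_one_div_of_le h3 h2
  have h5 : 1 / (1 + s) ≤ 1 - s / 2 := by
    rw [div_le_iff₀ h3]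
    nlinarith only [h0, h1]
  linarith only [h4, h5]

/-- A uniform lower bound for all finite-volume crossing probabilities. -/
theorem exists_cr_ge [G.LocallyFinite] [Infinite V] (hG : G.Connected)
    (hqt : IsQuasiTransitive G) : ∃ c : ℝ, 0 < c ∧ ∀ p : ℝ, pc G ≤ p → p ≤ 1 →
      ∀ (L : Finset V) (x : V), c * (p - pc G) ≤ cr G p L x := by
  have hpc0 := pc_pos hG hqt
  rcases lt_or_ge (pc G) 1 with hpc1 | hpc1
  · obtain ⟨o, ho⟩ := exists_phi_big hG hqt hpc1
    obtain ⟨R, hR⟩ := hqt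
    set D := R.sup (fun y => G.dist y o) with hD
    refine ⟨pc G ^ D / 4, by positivity, fun p hp hp1 L x => ?_⟩
    have h0 : 0 ≤ p := hpc0.le.trans hp
    obtain ⟨y, hy, g, rfl⟩ := hR x
    obtain ⟨w, hw⟩ := hG.exists_walk_length_eq_dist y o
    have h1 := cr_walk h0 hp1 L (w.map g.toHom)
    rw [SimpleGraph.Walk.length_map, hw] at h1
    have h2 : (p - pc G) / 4 ≤ cr G p L (g o) := by
      by_cases hgL : g o ∈ L
      · have h3 := FV.crossing_ge (G := G) hpc0.le hp hp1 hgL (c := 1 / 2)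
          (fun p' hp0 hp1' S hS => by
            rw [← sh_phi_eq]
            exact (shPhi_image g ho S hS).trans
              (sh_phi_mono G hpc0.le hp0 (hp1'.trans hp1) (g o) S))
        have h4 := exp_bound (s := 1 / 2 * (p - pc G)) (by linarith only [hp])
          (by linarith only [hp1, hpc0])
        have h5 : cr G p L (g o) = FV.Ex p (FV.touch G L)
          (fun B => FV.ind (FV.crossing (g o) L B)) := rfl
        rw [h5]
        linarith only [h3, h4]
      · rw [cr_of_notMem p hgL]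
        linarith only [hp1, hpc0]
    have h3 : pc G ^ D ≤ p ^ G.dist y o := by
      have h4 : G.dist y o ≤ D := Finset.le_sup (f := fun y => G.dist y o) hy
      exact (pow_le_pow_of_le_one hpc0.le hpc1.le h4).trans (pow_le_pow_left₀ hpc0.le hp _)
    have h4 : 0 ≤ (p - pc G) / 4 := by linarith only [hp]
    have h5 := mul_le_mul h3 h2 h4 (pow_nonneg h0 _)
    have h6 : pc G ^ D / 4 * (p - pc G) = pc G ^ D * ((p - pc G) / 4) := by ring
    rw [h6]
    exact h5.trans h1
  · refine ⟨1, one_pos, fun p hp hp1 L x => ?_⟩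
    have h2 : p - pc G ≤ 0 := by linarith only [hpc1, hp1]
    have h3 := cr_nonneg (G := G) (hpc0.le.trans hp) hp1 L x
    linarith only [h2, h3]

/-- **The mean-field lower bound** for the probability of an infinite cluster. -/
theorem infC_ge [G.LocallyFinite] [Infinite V] (hG : G.Connected)
    (hqt : IsQuasiTransitive G) : ∃ c : ℝ, 0 < c ∧ ∀ p : unitInterval, pc G ≤ p → ∀ x : V,
      c * (p - pc G) ≤ (setBernoulli G.edgeSet p).real (InfC x) := by
  obtain ⟨c, hc, h⟩ := exists_cr_ge hG hqt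
  refine ⟨c, hc, fun p hp x => prob_infC_ge G hG p x _ fun L _ => ?_⟩
  have h1 := h p hp p.2.2 L x
  unfold cr at h1
  classical
  rw [fv_touch_eq, FV.Ex_ind_eq_sum_filter] at h1
  convert h1 using 3
  exact Iff.rfl

theorem percProb_ge [G.LocallyFinite] [Infinite V] (hG : G.Connected)
    (hqt : IsQuasiTransitive G) : ∃ c : ℝ, 0 < c ∧ ∀ p : unitInterval, pc G ≤ p → ∀ x : V,
      ENNReal.ofReal (c * (p - pc G)) ≤ percProb G p x := by
  obtain ⟨c, hc, h⟩ := infC_ge hG hqt
  refine ⟨c, hc, fun p hp x => ?_⟩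
  have h1 := h p hp x
  rw [measureReal_def, ← ENNReal.ofReal_le_iff_le_toReal (measure_ne_top _ _)] at h1
  exact h1

/-- A vertex connected to the outside of a ball of radius `n` has a large cluster. -/
theorem le_csz_of_crossing [G.LocallyFinite] {n : ℕ} {x : V} {B : Finset (Sym2 V)}
    (hB : B ⊆ FV.touch G (ballF G x n)) (h : FV.crossing x (ballF G x n) B) : n ≤ csz B x := by
  obtain ⟨y, hy, hxy⟩ := h
  obtain ⟨w, hw⟩ := hxy.exists_isPath
  have hle : FV.gr B ≤ G := by
    intro a b hab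
    obtain ⟨_, _, _, h⟩ := FV.mem_touch.1 (hB (FV.gr_adj hab))
    exact h
  have h1 : n < w.length := by
    by_contra hcon
    push Not at hcon
    exact hy (mem_ballF_of_walk G x n y (w.mapLe hle).reverse (by
      rw [SimpleGraph.Walk.length_reverse, SimpleGraph.Walk.length_mapLe]; exact hcon))
  have h2 : w.support.toFinset ⊆ cl B x := by
    intro v hv
    rw [List.mem_toFinset] at hv
    exact Vale.Agent.P151.mem_cl.2 ⟨w.takeUntil v hv⟩
  have h3 := Finset.card_le_card h2
  rw [List.toFinset_card_of_nodup hw.support_nodup, SimpleGraph.Walk.length_support] at h3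
  unfold csz
  omega

theorem touch_subset_edgesIn [G.LocallyFinite] (L : Finset V) :
    FV.touch G L ⊆ edgesIn G (L ∪ L.biUnion fun x => G.neighborFinset x) := by
  intro e he
  obtain ⟨x, hx, hxe, hG⟩ := FV.mem_touch.1 he
  rw [Vale.Agent.P151.mem_edgesIn]
  refine ⟨hG, fun v hv => ?_⟩
  by_cases hvx : v = x
  · subst hvx
    exact Finset.mem_union_left _ hx
  · refine Finset.mem_union_right _ (Finset.mem_biUnion.2 ⟨x, hx, ?_⟩)
    rw [SimpleGraph.mem_neighborFinset]
    have : e = s(x, v) := (Sym2.mem_and_mem_iff (Ne.symm hvx)).1 ⟨hxe, hv⟩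
    rw [this] at hG
    exact hG

theorem thetaLow [G.LocallyFinite] [Infinite V] (hG : G.Connected)
    (hqt : IsQuasiTransitive G) : ThetaLow G := by
  obtain ⟨c, hc, h⟩ := exists_cr_ge hG hqt
  refine ⟨c, hc, fun p hp hp1 x n => ?_⟩
  have h0 : 0 ≤ p := (pc_pos hG hqt).le.trans hp
  refine (h p hp hp1 (ballF G x n) x).trans ?_
  have h1 : cr G p (ballF G x n) x ≤
      Ex p (FV.touch G (ballF G x n)) (fun S => ind (n ≤ csz S x)) := by
    refine FV.Ex_mono h0 hp1 fun B hB => ?_
    by_cases hcr : FV.crossing x (ballF G x n) B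
    · rw [FV.ind_of hcr, ind_true (le_csz_of_crossing hB hcr)]
    · rw [FV.ind_not hcr]
      exact ind_nonneg _
  have hm : Monotone fun S : Finset (Sym2 V) => ind (n ≤ csz S x) := fun S T hST =>
    ind_mono fun h => h.trans (Vale.Agent.P151.csz_mono hST x)
  exact h1.trans ((Vale.Agent.P151.Ex_mono_set h0 hp1 (touch_subset_edgesIn _) hm).trans
    (Vale.Agent.P151.le_EV h0 hp1 (fun S => ind_le_one _) _))

end Vale.Agent.P165.H115
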