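import Vale.Agent.P165.H199.Val

/-!
The pieces `S1`, `S2`, `S3` of the local surgery.
-/

open Finset

set_option linter.unusedSectionVars false

namespace Vale.Agent.P165.H115

open Vale.Agent.P151 (Ex Cn cl csz edgesIn EV con tau)
open Vale.Agent.P165.LF Vale.Agent.P165.H199

section S2

variable {ι : Type*} [DecidableEq ι]

theorem Ex_insert_le {q : ℝ} (h0 : 0 < q) (h1 : q ≤ 1) {Λ : Finset ι} {e : ι} (he : e ∈ Λ)
    {f : Finset ι → ℝ} (hf : ∀ S, 0 ≤ f S) :
    Ex q Λ (fun S => f (insert e S)) ≤ 1 / q * Ex q Λ f := by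
  have hΛ : insert e (Λ.erase e) = Λ := Finset.insert_erase he
  have hne : e ∉ Λ.erase e := Finset.notMem_erase e Λ
  have a1 := Vale.Agent.P151.Ex_insert q hne f
  have a2 := Vale.Agent.P151.Ex_insert q hne (fun S => f (insert e S))
  rw [hΛ] at a1 a2
  simp only [Finset.insert_idem] at a2
  have a3 : 0 ≤ Ex q (Λ.erase e) f := Vale.Agent.P151.Ex_nonneg h0.le h1 fun S _ => hf S
  rw [a2, a1, one_div, inv_mul_eq_div, le_div_iff₀ h0]
  nlinarith only [mul_nonneg (sub_nonneg.2 h1) a3]

theorem Ex_exists_union_le {q : ℝ} (h0 : 0 < q) (h1 : q ≤ 1) {Λ : Finset ι} :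
    ∀ D : Finset ι, D ⊆ Λ → ∀ P : Finset ι → Prop,
      Ex q Λ (fun S => ind (∃ γ ⊆ D, P (S ∪ γ))) ≤ (2 / q) ^ D.card *
        Ex q Λ (fun S => ind (P S)) := by
  intro D
  induction D using Finset.induction_on with
  | empty =>
    intro _ P
    rw [Finset.card_empty, pow_zero, one_mul]
    refine Vale.Agent.P151.Ex_mono h0.le h1 fun S _ => ind_mono ?_
    rintro ⟨γ, hγ, hP⟩
    rw [Finset.subset_empty.1 hγ, Finset.union_empty] at hP
    exact hP
  | insert e D he ih =>
    intro hD P
    have hD' : D ⊆ Λ := (Finset.subset_insert e D).trans hD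
    have heΛ : e ∈ Λ := hD (Finset.mem_insert_self e D)
    have i1 := ih hD' P
    have i2 := ih hD' (fun T => P (insert e T))
    have h3 : Ex q Λ (fun S => ind (∃ γ ⊆ insert e D, P (S ∪ γ))) ≤
        Ex q Λ (fun S => ind (∃ γ ⊆ D, P (S ∪ γ)) + ind (∃ γ ⊆ D, P (insert e (S ∪ γ)))) := by
      refine Vale.Agent.P151.Ex_mono h0.le h1 fun S _ => ?_
      by_cases h : ∃ γ ⊆ insert e D, P (S ∪ γ)
      · obtain ⟨γ, hγ, hP⟩ := h
        have hle := ind_le_one (∃ γ ⊆ insert e D, P (S ∪ γ))
        by_cases heγ : e ∈ γ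
        · have h4 : ind (∃ γ ⊆ D, P (insert e (S ∪ γ))) = 1 := by
            refine ind_true ⟨γ.erase e, ?_, ?_⟩
            · rw [Finset.subset_insert_iff] at hγ
              exact hγ
            · rw [← Finset.union_insert, Finset.insert_erase heγ]
              exact hP
          have h5 := ind_nonneg (∃ γ ⊆ D, P (S ∪ γ))
          linarith only [h4, h5, hle]
        · have h4 : ind (∃ γ ⊆ D, P (S ∪ γ)) = 1 := by
            refine ind_true ⟨γ, ?_, hP⟩
            rw [Finset.subset_insert_iff_of_notMem heγ] at hγ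
            exact hγ
          have h5 := ind_nonneg (∃ γ ⊆ D, P (insert e (S ∪ γ)))
          linarith only [h4, h5, hle]
      · rw [ind_false h]
        exact add_nonneg (ind_nonneg _) (ind_nonneg _)
    have h4 := Ex_insert_le h0 h1 heΛ (f := fun S => ind (P S)) fun S => ind_nonneg _
    have h5 : 0 ≤ Ex q Λ (fun S => ind (P S)) :=
      Vale.Agent.P151.Ex_nonneg h0.le h1 fun S _ => ind_nonneg _
    rw [Vale.Agent.P151.Ex_add] at h3
    have hq : 1 ≤ 1 / q := by rw [le_div_iff₀ h0]; linarith only [h1]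
    have hp : 0 ≤ (2 / q) ^ D.card := by positivity
    rw [Finset.card_insert_of_notMem he, pow_succ]
    have h6 := mul_le_mul_of_nonneg_left h4 hp
    have h7 : (2 / q) ^ D.card * Ex q Λ (fun S => ind (P S)) +
        (2 / q) ^ D.card * (1 / q * Ex q Λ (fun S => ind (P S))) ≤
        (2 / q) ^ D.card * (2 / q) * Ex q Λ (fun S => ind (P S)) := by
      have e1 : (2 : ℝ) / q = 2 * (1 / q) := by ring
      rw [show (2 / q) ^ D.card * (2 / q) * Ex q Λ (fun S => ind (P S)) =
        (2 / q) ^ D.card * ((2 / q) * Ex q Λ (fun S => ind (P S))) by ring, ← mul_add]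
      refine mul_le_mul_of_nonneg_left ?_ hp
      rw [e1]
      nlinarith only [mul_le_mul_of_nonneg_right hq h5]
    linarith only [h3, i1, i2, h6, h7]

end S2

variable {V : Type} [DecidableEq V] {G : SimpleGraph V}

theorem s2 : S2 V := fun _ h0 h1 _ D hD P => Ex_exists_union_le h0 h1 D hD P

/-- Removing an edge off the cluster. -/
theorem Cn_erase_of_off {S : Finset (Sym2 V)} {e : Sym2 V} {x z : V} (h : Cn S x z)
    (he : ∀ v ∈ e, ¬ Cn S x v) : Cn (S.erase e) x z := by
  have h1 : z ∈ {y | Cn (S.erase e) x y} := by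
    refine Vale.Agent.P151.Cn_closed (S := S) ?_ (Vale.Agent.P151.Cn.refl _ x) h
    intro u hu v huv
    have hne : s(u, v) ≠ e := by
      rintro rfl
      exact he u (Sym2.mem_mk_left u v) (Vale.Agent.P151.Cn.mono (Finset.erase_subset _ _) hu)
    exact Vale.Agent.P151.Cn.trans hu
      (Vale.Agent.P151.Cn_of_mem (Finset.mem_erase.2 ⟨hne, huv⟩))
  exact h1

/-- Two disjoint sets of edges are not both valid. -/
theorem Val_disjoint {x : V} {D E S : Finset (Sym2 V)} {A : Finset V} (hD : Val x D S A)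
    (hE : Val x E S A) (hDE : Disjoint D E) : False := by
  obtain ⟨⟨z, hz, hxz⟩, f, hf, hf1, hf2⟩ := hD
  obtain ⟨-, g, hg, hg1, hg2⟩ := hE
  have hgD : g ∉ D := fun h => Finset.disjoint_left.1 hDE h hg
  have hfE : f ∉ E := fun h => Finset.disjoint_left.1 hDE hf h
  have hfg : f ≠ g := fun h => hfE (h ▸ hg)
  have h1 : ∃ v ∈ g, Cn (S.erase f) x v := by
    by_contra hcon
    push Not at hcon
    exact hg1 (hf2 g hgD hcon)
  have h2 : ∃ v ∈ f, Cn (S.erase g) x v := by
    by_contra hcon
    push Not at hcon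
    exact hf1 (hg2 f hfE hcon)
  -- both end points of an open edge which is reached
  have key : ∀ (a b : Sym2 V), a ≠ b → (∃ v ∈ a, Cn (S.erase b) x v) → ∀ u v : V, s(u, v) = a →
      s(u, v) ∈ S → Cn (S.erase b) x v := by
    intro a b hab hv u v huv hS
    obtain ⟨w, hw, hcw⟩ := hv
    rw [← huv, Sym2.mem_iff] at hw
    have hmem : s(u, v) ∈ S.erase b := Finset.mem_erase.2 ⟨by rw [huv]; exact hab, hS⟩
    rcases hw with rfl | rfl
    · exact hcw.trans (Vale.Agent.P151.Cn_of_mem hmem)
    · exact hcw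
  have h3 : z ∈ {y | Cn (S.erase f) x y ∨ Cn (S.erase g) x y} := by
    refine Vale.Agent.P151.Cn_closed (S := S) ?_ (Or.inl (Vale.Agent.P151.Cn.refl _ x)) hxz
    rintro u (hu | hu) v huv
    · by_cases h : s(u, v) = f
      · exact Or.inr (key f g hfg h2 u v h huv)
      · exact Or.inl (hu.trans (Vale.Agent.P151.Cn_of_mem (Finset.mem_erase.2 ⟨h, huv⟩)))
    · by_cases h : s(u, v) = g
      · exact Or.inl (key g f hfg.symm h1 u v h huv)
      · exact Or.inr (hu.trans (Vale.Agent.P151.Cn_of_mem (Finset.mem_erase.2 ⟨h, huv⟩)))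
  rcases h3 with h | h
  · exact hf1 ⟨z, hz, h⟩
  · exact hg1 ⟨z, hz, h⟩

theorem s1 [G.LocallyFinite] (hqt : IsQuasiTransitive G) : S1 G := by
  obtain ⟨d, -, hd⟩ := LF.exists_degree_bound (G := G) hqt
  intro m
  refine ⟨((d + 1) ^ (2 * m) : ℕ), by positivity, fun x S A W => ?_⟩
  by_cases hex : ∃ w₀ ∈ W, Val x (edgesIn G (ballF G w₀ m)) S A
  · obtain ⟨w₀, -, hw₀⟩ := hex
    rw [ind_true hw₀.1, mul_one]
    have h1 : ∀ w ∈ W, ind (Val x (edgesIn G (ballF G w m)) S A) ≤
        if w ∈ ballF G w₀ (2 * m) then (1 : ℝ) else 0 := by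
      intro w _
      by_cases hw : Val x (edgesIn G (ballF G w m)) S A
      · rw [ind_true hw, if_pos]
        by_contra hfar
        refine Val_disjoint hw hw₀ (Finset.disjoint_left.2 fun e he he₀ => hfar ?_)
        induction e with
        | _ a b =>
          have ha := (Vale.Agent.P151.mk_mem_edgesIn.1 he).2.1
          have ha₀ := (Vale.Agent.P151.mk_mem_edgesIn.1 he₀).2.1
          obtain ⟨p1, hp1⟩ := dist_le_of_mem_ballF G w m a ha
          obtain ⟨p2, hp2⟩ := dist_le_of_mem_ballF G w₀ m a ha₀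
          exact mem_ballF_of_walk G w₀ (2 * m) w (p1.reverse.append p2) (by
            rw [SimpleGraph.Walk.length_append, SimpleGraph.Walk.length_reverse]; omega)
      · rw [ind_false hw]
        split_ifs <;> norm_num
    refine (Finset.sum_le_sum h1).trans ?_
    rw [← Finset.sum_filter, Finset.sum_const, nsmul_eq_mul, mul_one]
    have h2 : (W.filter (fun w => w ∈ ballF G w₀ (2 * m))).card ≤ (d + 1) ^ (2 * m) :=
      (Finset.card_le_card fun w hw => (Finset.mem_filter.1 hw).2).trans
        (card_ballF_le G d hd w₀ (2 * m))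
    exact_mod_cast h2
  · push Not at hex
    rw [Finset.sum_eq_zero fun w hw => ind_false (hex w hw)]
    exact mul_nonneg (by positivity) (ind_nonneg _)

theorem s3 [G.LocallyFinite] (hG : G.Connected) : S3 G := by
  rintro x w w₂ R r S A hnA ⟨y₀, hy₀K, hy₀⟩ hoff hw₂ hnc hgw hgw₂
  have hwK : w ∉ cl S x := hoff w (mem_ballF_self G w r)
  obtain ⟨y, hyK, hmin⟩ := (cl S x).exists_min_image (fun y => G.dist y w) ⟨y₀, hy₀K⟩
  obtain ⟨p₀, hp₀⟩ := dist_le_of_mem_ballF G w R y₀ hy₀
  have hyR : G.dist y w ≤ R := (hmin y₀ hy₀K).trans ((SimpleGraph.dist_le p₀).trans hp₀)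
  obtain ⟨π, hπ⟩ := hG.exists_walk_length_eq_dist y w
  obtain ⟨σ, hσ⟩ := dist_le_of_mem_ballF G w r w₂ hw₂
  cases π with
  | nil => exact absurd hyK hwK
  | @cons _ u _ h ρ =>
    rw [SimpleGraph.Walk.length_cons] at hπ
    have hρK : ∀ v ∈ ρ.support, v ∉ cl S x := by
      intro v hv hvK
      have h1 := hmin v hvK
      have h2 := (SimpleGraph.dist_le (ρ.dropUntil v hv)).trans (ρ.length_dropUntil_le_length hv)
      omega
    have hρB : ∀ v ∈ ρ.support, v ∈ ballF G w (R + r) := by
      intro v hv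
      have h2 := ρ.length_dropUntil_le_length hv
      exact mem_ballF_of_walk G w (R + r) v (ρ.dropUntil v hv) (by omega)
    have hyB : y ∈ ballF G w (R + r) :=
      mem_ballF_of_walk G w (R + r) y (SimpleGraph.Walk.cons h ρ) (by
        rw [SimpleGraph.Walk.length_cons]; omega)
    have hσK : ∀ v ∈ σ.support, v ∉ cl S x := by
      intro v hv
      refine hoff v (mem_ballF_of_walk G w r v (σ.dropUntil v hv) ?_)
      have h2 := σ.length_dropUntil_le_length hv
      omega
    have hσB : ∀ v ∈ σ.support, v ∈ ballF G w (R + r) := by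
      intro v hv
      have h2 := σ.length_dropUntil_le_length hv
      exact mem_ballF_of_walk G w (R + r) v (σ.dropUntil v hv) (by omega)
    set D := edgesIn G (ballF G w (R + r)) with hD
    set γ : Finset (Sym2 V) := insert s(y, u) (ρ.edges.toFinset ∪ σ.edges.toFinset) with hγ
    have hγD : γ ⊆ D := by
      intro e he
      rw [hγ, Finset.mem_insert, Finset.mem_union, List.mem_toFinset, List.mem_toFinset] at he
      rw [hD, Vale.Agent.P151.mem_edgesIn]
      rcases he with rfl | he | he
      · refine ⟨h, fun v hv => ?_⟩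
        rw [Sym2.mem_iff] at hv
        rcases hv with rfl | rfl
        · exact hyB
        · exact hρB _ ρ.start_mem_support
      · exact ⟨ρ.edges_subset_edgeSet he, fun v hv => hρB v (ρ.mem_support_of_mem_edges he hv)⟩
      · exact ⟨σ.edges_subset_edgeSet he, fun v hv => hσB v (σ.mem_support_of_mem_edges he hv)⟩
    have hfγ : s(y, u) ∈ γ := by rw [hγ]; exact Finset.mem_insert_self _ _
    have huK : u ∉ cl S x := hρK u ρ.start_mem_support
    have hxy : Cn S x y := Vale.Agent.P151.mem_cl.1 hyK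
    have hfS : s(y, u) ∉ S := fun hS =>
      huK (Vale.Agent.P151.mem_cl.2 (hxy.trans (Vale.Agent.P151.Cn_of_mem hS)))
    have hyw : ∀ T : Finset (Sym2 V), γ ⊆ T → Cn T y w := by
      intro T hT
      refine Cn_of_walk (SimpleGraph.Walk.cons h ρ) T fun e he => hT ?_
      rw [SimpleGraph.Walk.edges_cons, List.mem_cons] at he
      rw [hγ, Finset.mem_insert, Finset.mem_union, List.mem_toFinset]
      rcases he with he | he
      · exact Or.inl he
      · exact Or.inr (Or.inl he)
    have hww₂ : ∀ T : Finset (Sym2 V), γ ⊆ T → Cn T w w₂ := by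
      intro T hT
      refine (Cn_of_walk σ T fun e he => hT ?_).symm
      rw [hγ, Finset.mem_insert, Finset.mem_union, List.mem_toFinset, List.mem_toFinset]
      exact Or.inr (Or.inr he)
    refine ⟨γ, hγD, ?_, s(y, u), hγD hfγ, ?_, ?_⟩
    · obtain ⟨z, hz, hwz⟩ := hgw
      exact ⟨z, hz, (hxy.mono Finset.subset_union_left).trans
        ((hyw _ Finset.subset_union_right).trans (hwz.mono Finset.subset_union_left))⟩
    · rintro ⟨z, hz, hc⟩
      refine hnA ⟨z, hz, ?_⟩
      have h3 : z ∈ {v | Cn S x v} := by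
        refine Vale.Agent.P151.Cn_closed (S := (S ∪ γ).erase s(y, u)) ?_
          (Vale.Agent.P151.Cn.refl _ x) hc
        intro a ha b hab
        have haK : a ∈ cl S x := Vale.Agent.P151.mem_cl.2 ha
        rw [Finset.mem_erase, Finset.mem_union, hγ, Finset.mem_insert, Finset.mem_union,
          List.mem_toFinset, List.mem_toFinset] at hab
        obtain ⟨hne, hS | rfl' | hρ | hσ'⟩ := hab
        · exact Vale.Agent.P151.Cn.trans ha (Vale.Agent.P151.Cn_of_mem hS)
        · exact absurd rfl' hne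
        · exact absurd haK (hρK a (ρ.fst_mem_support_of_mem_edges hρ))
        · exact absurd haK (hσK a (σ.fst_mem_support_of_mem_edges hσ'))
      exact h3
    · intro e heD hoffe
      have hSf : S ⊆ (S ∪ γ).erase s(y, u) := fun a ha =>
        Finset.mem_erase.2 ⟨fun h => hfS (h ▸ ha), Finset.mem_union_left _ ha⟩
      have hoffS : ∀ v ∈ e, ¬ Cn S x v := fun v hv hc => hoffe v hv (hc.mono hSf)
      have heγ : e ∉ γ := fun h => heD (hγD h)
      have hγe : γ ⊆ (S ∪ γ).erase e := fun a ha =>
        Finset.mem_erase.2 ⟨fun h => heγ (h ▸ ha), Finset.mem_union_right _ ha⟩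
      have hSe : S.erase e ⊆ (S ∪ γ).erase e :=
        Finset.erase_subset_erase e Finset.subset_union_left
      have c1 : Cn ((S ∪ γ).erase e) x w :=
        ((Cn_erase_of_off hxy hoffS).mono hSe).trans (hyw _ hγe)
      by_cases heS : e ∈ S
      · by_cases hex : ∃ v ∈ e, Cn S w v
        · obtain ⟨z, hz, hc⟩ := hgw₂
          refine ⟨z, hz, (c1.trans (hww₂ _ hγe)).trans ((Cn_erase_of_off hc ?_).mono hSe)⟩
          intro v hv hcv
          obtain ⟨v', hv', hcv'⟩ := hex
          have hvv' : Cn S v' v := by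
            induction e with
            | _ a b =>
              rw [Sym2.mem_iff] at hv hv'
              have hab : Cn S a b := Vale.Agent.P151.Cn_of_mem heS
              rcases hv with rfl | rfl <;> rcases hv' with rfl | rfl
              · exact Vale.Agent.P151.Cn.refl _ _
              · exact hab.symm
              · exact hab
              · exact Vale.Agent.P151.Cn.refl _ _
          exact hnc ((hcv'.trans hvv').trans hcv.symm)
        · push Not at hex
          obtain ⟨z, hz, hc⟩ := hgw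
          exact ⟨z, hz, c1.trans ((Cn_erase_of_off hc hex).mono hSe)⟩
      · obtain ⟨z, hz, hc⟩ := hgw
        refine ⟨z, hz, c1.trans (hc.mono ?_)⟩
        rw [Finset.erase_eq_of_notMem heS] at hSe
        exact hSe

end Vale.Agent.P165.H115
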