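import Vale.Agent.P165.H199.Esc
import Vale.Agent.P165.H199.BAMain
import Vale.Agent.P165.H177.Up
import Vale.Agent.P165.H115.MFTheta

/-!
The sharp tail of finite clusters above `p_c`, from `CoreFin` and `EscLow`.
-/

open Finset

set_option linter.unusedSectionVars false

namespace Vale.Agent.P165.H115

open Vale.Agent.P151 (Ex Cn cl csz edgesIn EV con tau)
open Vale.Agent.P165.LF Vale.Agent.P165.H794 Vale.Agent.P165.H199

variable {V : Type} [DecidableEq V] {G : SimpleGraph V}

/-- A cluster with at most `L` vertices lies in the ball of radius `L`. -/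
theorem cl_subset_ballF_of_csz [G.LocallyFinite] {F : Finset V} {S : Finset (Sym2 V)}
    (hS : S ⊆ edgesIn G F) {x : V} {L : ℕ} (h : csz S x ≤ L) : cl S x ⊆ ballF G x L := by
  intro y hy
  have hy' : (Vale.Agent.P151.gr S).Reachable x y := Vale.Agent.P151.mem_cl.1 hy
  obtain ⟨w, hw⟩ := hy'.exists_isPath
  have hle : Vale.Agent.P151.gr S ≤ G := by
    intro a b hab
    have h1 := hS (Vale.Agent.P151.gr_adj.1 hab).1
    rw [Vale.Agent.P151.mem_edgesIn] at h1
    exact h1.1
  have h2 : w.support.toFinset ⊆ cl S x := by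
    intro v hv
    rw [List.mem_toFinset] at hv
    exact Vale.Agent.P151.mem_cl.2 ⟨w.takeUntil v hv⟩
  have h3 := Finset.card_le_card h2
  rw [List.toFinset_card_of_nodup hw.support_nodup, SimpleGraph.Walk.length_support] at h3
  refine mem_ballF_of_walk G x L y (w.mapLe hle).reverse ?_
  rw [SimpleGraph.Walk.length_reverse, SimpleGraph.Walk.length_mapLe]
  unfold csz at h
  omega

/-- The ghost magnetization above `p_c` is at least `c (p - p_c)`. -/
theorem mM_ge [Infinite V] [G.LocallyFinite] (hG : G.Connected) (hqt : IsQuasiTransitive G) :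
    ∃ c : ℝ, 0 < c ∧ ∀ p t : ℝ, pc G ≤ p → p ≤ 1 → 0 < t → t < 1 →
      c * (p - pc G) ≤ mM G p t := by
  have hne : Nonempty V := hG.nonempty
  have hpc0 := pc_pos (G := G) hG hqt
  obtain ⟨c, hc, hθ⟩ := thetaLow (G := G) hG hqt
  refine ⟨c, hc, fun p t hp hple1 ht0 ht1 => ?_⟩
  have hp0 : 0 ≤ p := hpc0.le.trans hp
  obtain ⟨x⟩ := hne
  have h1 : ∀ n : ℕ, (1 - t ^ n) * (c * (p - pc G)) ≤ mM G p t := by
    intro n
    rcases eq_or_ne n 0 with rfl | hn
    · have h2 := H177.mF_le_mM (G := G) hp0 hple1 ht0.le ∅ x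
      have h3 : 0 ≤ mF G p t (∅ : Finset V) x :=
        Vale.Agent.P151.Ex_nonneg hp0 hple1 fun S _ => H177.gh_nonneg ht0.le ht1.le x S
      rw [pow_zero, sub_self, zero_mul]
      exact h3.trans h2
    · have h2 : 0 < 1 - t ^ n := by
        have := pow_lt_one₀ ht0.le ht1 hn
        linarith only [this]
      have h3 : EV G p (fun S => ind (n ≤ csz S x)) ≤ mM G p t / (1 - t ^ n) := by
        refine Vale.Agent.P151.EV_le fun F => ?_
        rw [le_div_iff₀ h2, mul_comm]
        exact (H177.tail_le_mF hp0 hple1 ht0.le ht1.le n F x).trans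
          (H177.mF_le_mM hp0 hple1 ht0.le F x)
      have h4 := (hθ p hp hple1 x n).trans h3
      rw [le_div_iff₀ h2] at h4
      linarith only [h4]
  have h2 : Filter.Tendsto (fun n : ℕ => (1 - t ^ n) * (c * (p - pc G))) Filter.atTop
      (nhds ((1 - 0) * (c * (p - pc G)))) :=
    (tendsto_const_nhds.sub (tendsto_pow_atTop_nhds_zero_of_lt_one ht0.le ht1)).mul_const _
  have h3 := le_of_tendsto h2 (Filter.Eventually.of_forall h1)
  linarith only [h3]

/-- `P_q(|K_x| ≥ n) ≤ C n^(-1/2) + C (q - p_c)` above `p_c`. -/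
theorem tail_above [Infinite V] [G.LocallyFinite] (hG : G.Connected)
    (hqt : IsQuasiTransitive G) (hna : 0 < vertexCheeger G) :
    ∃ C : ℝ, 0 < C ∧ ∀ q : ℝ, pc G ≤ q → q ≤ 1 → ∀ n : ℕ, 1 ≤ n → ∀ (x : V) (F : Finset V),
      Ex q (edgesIn G F) (fun S => ind (n ≤ csz S x)) ≤ C / √(n : ℝ) + C * (q - pc G) := by
  have hne : Nonempty V := hG.nonempty
  have hpc0 := pc_pos (G := G) hG hqt
  have hb : BA1 G := ba1 hG hqt hna
  obtain ⟨K, hK, hcrit⟩ := H177.mM_crit hG hqt hna hb
  obtain ⟨p₁, L, hp₁, hp1, hL, hlip⟩ := H177.mM_lipschitz hG hqt hb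
  have hp₁' : 0 < p₁ - pc G := by linarith only [hp₁]
  refine ⟨2 * K + 2 * L + 1 + 1 / (p₁ - pc G), by positivity, fun q hq hq1 n hn x F => ?_⟩
  set D : ℝ := 2 * K + 2 * L + 1 + 1 / (p₁ - pc G) with hD
  have hi : 0 < 1 / (p₁ - pc G) := by positivity
  have hD0 : 0 < D := by positivity
  have hq0 : 0 ≤ q := hpc0.le.trans hq
  have hdiff : 0 ≤ q - pc G := by linarith only [hq]
  have hn0 : (0 : ℝ) < n := by exact_mod_cast hn
  have hsq : 0 < √(n : ℝ) := Real.sqrt_pos.2 hn0
  have hP1 := H177.tail_le_one (G := G) hq0 hq1 n F x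
  have hP0 := H177.tail_nonneg (G := G) hq0 hq1 n F x
  set P := Ex q (edgesIn G F) (fun S => ind (n ≤ csz S x)) with hP
  rcases Nat.lt_or_ge n 2 with h2 | h2
  · have h3 : n = 1 := by omega
    rw [h3, Nat.cast_one, Real.sqrt_one, div_one]
    have h4 : 0 ≤ D * (q - pc G) := by positivity
    linarith only [hP1, hK, hL, hi, hD, h4]
  · rcases le_total q p₁ with hqp | hqp
    · have hn2 : (2 : ℝ) ≤ n := by exact_mod_cast h2
      set t : ℝ := 1 - 1 / n with ht
      have h1n : 1 / (n : ℝ) ≤ 1 / 2 := one_div_le_one_div_of_le (by norm_num) hn2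
      have h1n0 : 0 < 1 / (n : ℝ) := by positivity
      have ht0 : 0 < t := by linarith only [ht, h1n]
      have ht1 : t < 1 := by linarith only [ht, h1n0]
      have h4 : t ^ n ≤ 1 / 2 := by
        have h5 := Real.one_sub_div_pow_le_exp_neg (n := n) (t := 1) (by linarith only [hn2])
        have h6 : Real.exp (-1) ≤ 1 / 2 := by
          rw [Real.exp_neg, ← one_div]
          refine one_div_le_one_div_of_le (by norm_num) ?_
          have := Real.add_one_le_exp (1 : ℝ)
          linarith only [this]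
        exact h5.trans h6
      have h5 := (H177.tail_le_mF (G := G) hq0 hq1 ht0.le ht1.le n F x).trans
        (H177.mF_le_mM hq0 hq1 ht0.le F x)
      have h6 := hcrit t ht0 ht1
      have h6' := hlip t ht0 ht1 (pc G) q (by linarith only [hpc0]) hq hqp
      have h7 : √(1 - t) = 1 / √(n : ℝ) := by
        rw [ht, sub_sub_cancel, Real.sqrt_div zero_le_one, Real.sqrt_one]
      rw [h7] at h6
      have h8 : P / 2 ≤ K * (1 / √(n : ℝ)) + L * (q - pc G) := by
        nlinarith only [h5, h6, h6', h4, hP0]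
      have h9 : 2 * K / √(n : ℝ) ≤ D / √(n : ℝ) :=
        div_le_div_of_nonneg_right (by linarith only [hD, hL, hi]) hsq.le
      have h10 : 2 * L * (q - pc G) ≤ D * (q - pc G) :=
        mul_le_mul_of_nonneg_right (by linarith only [hD, hK, hi]) hdiff
      have h11 : K * (1 / √(n : ℝ)) * 2 = 2 * K / √(n : ℝ) := by ring
      linarith only [h8, h9, h10, h11]
    · have e1 : 1 ≤ 1 / (p₁ - pc G) * (q - pc G) := by
        rw [div_mul_eq_mul_div, one_mul, le_div_iff₀ hp₁']
        linarith only [hqp]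
      have e2 : 1 / (p₁ - pc G) * (q - pc G) ≤ D * (q - pc G) :=
        mul_le_mul_of_nonneg_right (by linarith only [hD, hK, hL]) hdiff
      have e3 : 0 ≤ D / √(n : ℝ) := by positivity
      linarith only [hP1, e1, e2, e3]

theorem mul_exp_le (z : ℝ) : z * Real.exp (-z ^ 2) ≤ 1 := by
  have h1 := Real.add_one_le_exp (z ^ 2)
  have h2 : z ≤ Real.exp (z ^ 2) := by nlinarith only [h1, sq_nonneg (z - 1)]
  rw [Real.exp_neg, ← div_eq_mul_inv, div_le_one (Real.exp_pos _)]
  exact h2

/-- **The sharp tail of finite clusters above `p_c`**, from the two blocks. -/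
theorem finTail [Infinite V] [G.LocallyFinite] (hG : G.Connected) (hqt : IsQuasiTransitive G)
    (hna : 0 < vertexCheeger G) (hC : CoreFin V) (hE : EscLow G) : FinTail G := by
  have hpc0 := pc_pos (G := G) hG hqt
  obtain ⟨p₁, c₁, hp₁, hp1, hc₁, hesc⟩ := hE
  obtain ⟨c₂, hc₂, hmM⟩ := mM_ge (G := G) hG hqt
  obtain ⟨C, hC0, htail⟩ := tail_above (G := G) hG hqt hna
  have hδ : 0 < p₁ - pc G := by linarith only [hp₁]
  have hδ1 : p₁ - pc G ≤ 1 := by linarith only [hp1, hpc0]
  set c : ℝ := c₁ * c₂ * (p₁ - pc G) / 8 with hc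
  have hc0 : 0 < c := by positivity
  have hsc : 0 < √c := Real.sqrt_pos.2 hc0
  refine ⟨c, C * (1 + 1 / √c), hc0, by positivity, fun q hq hq1 x n L hn t ht0 ht1 => ?_⟩
  set p : ℝ := (pc G + min q p₁) / 2 with hp
  set u : ℝ := q - pc G with hu
  have hu0 : 0 < u := by linarith only [hu, hq]
  have hu1 : u ≤ 1 := by linarith only [hu, hq1, hpc0]
  have hmin : (p₁ - pc G) * u ≤ min q p₁ - pc G := by
    rcases le_total q p₁ with h | h
    · rw [min_eq_left h]
      nlinarith only [hδ1, hu0, hu]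
    · rw [min_eq_right h]
      nlinarith only [hu1, hδ]
  have hminq : min q p₁ ≤ q := min_le_left _ _
  have hminp : min q p₁ ≤ p₁ := min_le_right _ _
  have hm0 : 0 < (p₁ - pc G) * u := by positivity
  have hppc : pc G ≤ p := by linarith only [hp, hmin, hm0]
  have hpp₁ : p ≤ p₁ := by linarith only [hp, hminp, hp₁]
  have hpq : (q - pc G) / 2 ≤ q - p := by linarith only [hp, hminq]
  have hp0 : 0 ≤ p := hpc0.le.trans hppc
  have hplt : p < 1 := hpp₁.trans_lt hp1
  have h1p : 0 < 1 - p := by linarith only [hplt]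
  set s : ℝ := (q - p) / (1 - p) with hs
  have hqp0 : 0 ≤ q - p := by linarith only [hpq, hu0, hu]
  have hs0 : 0 ≤ s := div_nonneg hqp0 h1p.le
  have hs1 : s ≤ 1 := by
    rw [hs, div_le_one h1p]
    linarith only [hq1]
  have hsq : q - p ≤ s := by
    rw [hs, le_div_iff₀ h1p]
    nlinarith only [hqp0, hp0]
  have hmq : 1 - q = (1 - p) * (1 - s) := by
    rw [hs]
    field_simp
    ring
  have hM := hmM p t hppc hplt.le ht0 ht1
  have hMlow : c₂ * ((p₁ - pc G) * u / 2) ≤ mM G p t := by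
    refine le_trans (mul_le_mul_of_nonneg_left ?_ hc₂.le) hM
    linarith only [hp, hmin]
  have hM0 : 0 < mM G p t := lt_of_lt_of_le (by positivity) hMlow
  obtain ⟨F0, hF0⟩ := hesc p t (by linarith only [hppc, hpc0]) hpp₁ ht0 ht1 x L
  refine ⟨insert x F0, fun F hF => ?_⟩
  have hxF : x ∈ F := hF (mem_insert_self _ _)
  have hFF : F0 ⊆ F := (subset_insert _ _).trans hF
  have key := hC G p q s t (c₁ * mM G p t) hp0 hplt.le hs0 hs1 hmq ht0 ht1 (by positivity)
    F x n L hxF (fun S hS _ h2 => hF0 F hFF (cl S x) (cl_subset_ballF_of_csz hS h2))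
  refine key.trans ?_
  have ht := htail q hq.le hq1 n hn x F
  have hP0 := H177.tail_nonneg (G := G) (hpc0.le.trans hq.le) hq1 n F x
  have hn0 : (0 : ℝ) < n := by exact_mod_cast hn
  have hsn : 0 < √(n : ℝ) := Real.sqrt_pos.2 hn0
  have hsn2 : √(n : ℝ) * √(n : ℝ) = n := Real.mul_self_sqrt hn0.le
  have hexp : 2 * (c * u ^ 2 * n) ≤ s * (c₁ * mM G p t) * n := by
    refine le_trans ?_ (mul_le_mul_of_nonneg_right (mul_le_mul (hpq.trans hsq)
      (mul_le_mul_of_nonneg_left hMlow hc₁.le) (by positivity) hs0) hn0.le)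
    rw [hc]
    refine le_of_eq ?_
    ring
  have h1 : Real.exp (-(s * (c₁ * mM G p t) * n)) ≤
      Real.exp (-(c * u ^ 2 * n)) * Real.exp (-(c * u ^ 2 * n)) := by
    rw [← Real.exp_add]
    exact Real.exp_le_exp.2 (by linarith only [hexp])
  set E := Real.exp (-(c * u ^ 2 * n)) with hEdef
  have hE0 : 0 < E := Real.exp_pos _
  have hE1 : E ≤ 1 := Real.exp_le_one_iff.2 (by
    have : 0 ≤ c * u ^ 2 * n := by positivity
    linarith only [this])
  have h2 : E * u ≤ 1 / √c / √(n : ℝ) := by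
    have h3 := mul_exp_le (√c * (u * √(n : ℝ)))
    have h4 : (√c * (u * √(n : ℝ))) ^ 2 = c * u ^ 2 * n := by
      have h5 : √c * √c = c := Real.mul_self_sqrt hc0.le
      calc (√c * (u * √(n : ℝ))) ^ 2 = (√c * √c) * u ^ 2 * (√(n : ℝ) * √(n : ℝ)) := by ring
        _ = _ := by rw [h5, hsn2]
    rw [h4] at h3
    rw [le_div_iff₀ hsn, le_div_iff₀ hsc]
    calc E * u * √(n : ℝ) * √c = √c * (u * √(n : ℝ)) * E := by ring
      _ ≤ 1 := h3
  calc Real.exp (-(s * (c₁ * mM G p t) * n)) *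
        Ex q (edgesIn G F) (fun S => ind (n ≤ csz S x))
      ≤ (E * E) * (C / √(n : ℝ) + C * u) := mul_le_mul h1 ht hP0 (by positivity)
    _ = E * (E * (C / √(n : ℝ)) + C * (E * u)) := by ring
    _ ≤ E * (1 * (C / √(n : ℝ)) + C * (1 / √c / √(n : ℝ))) := by
        refine mul_le_mul_of_nonneg_left (add_le_add ?_ ?_) hE0.le
        · exact mul_le_mul_of_nonneg_right hE1 (by positivity)
        · exact mul_le_mul_of_nonneg_left h2 hC0.le
    _ = C * (1 + 1 / √c) / √(n : ℝ) * E := by ring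

end Vale.Agent.P165.H115
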