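import Vale.Agent.P165.H199.Mom

/-!
The moments of the cluster size: `E1 V → E2 G`.
-/

open Finset

set_option linter.unusedSectionVars false

namespace Vale.Agent.P165.H115

open Vale.Agent.P151 (Ex Cn cl csz edgesIn EV con tau)
open Vale.Agent.P165.LF Vale.Agent.P165.H199

variable {V : Type} [DecidableEq V]

theorem ind_forall {ι : Type*} [Fintype ι] (P : ι → Prop) :
    ind (∀ i, P i) = ∏ i, ind (P i) := by
  by_cases h : ∀ i, P i
  · rw [ind_true h]
    exact (Finset.prod_eq_one fun i _ => ind_true (h i)).symm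
  · rw [ind_false h]
    push Not at h
    obtain ⟨i, hi⟩ := h
    exact (Finset.prod_eq_zero (Finset.mem_univ i) (ind_false hi)).symm

/-- Powers of the cluster size as sums over tuples. -/
theorem sum_tuples {ι : Type} [Fintype ι] [DecidableEq ι] {S : Finset (Sym2 V)} {U : Finset V}
    (hU : ∀ e ∈ S, ∀ v ∈ e, v ∈ U) {x : V} (hx : x ∈ U) :
    ∑ z : ι → U, ind (∀ i, Cn S x (z i)) = (csz S x : ℝ) ^ Fintype.card ι := by
  have h1 : (csz S x : ℝ) = ∑ y : U, ind (Cn S x y) := by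
    rw [csz_eq_sum hU hx]
    exact (Finset.sum_coe_sort U fun y => ind (Cn S x y)).symm
  have h2 : (csz S x : ℝ) ^ Fintype.card ι = ∏ _i : ι, ∑ y : U, ind (Cn S x y) := by
    rw [Finset.prod_const, ← h1]
    rfl
  rw [h2, Finset.prod_univ_sum, Fintype.piFinset_univ]
  exact Finset.sum_congr rfl fun z _ => ind_forall _

/-- Factorization of sums over tuples. -/
theorem sum_factor {ι β : Type*} [Fintype ι] [DecidableEq ι] [Fintype β] (J : Finset ι)
    (f : ({i // i ∈ J} → β) → ℝ) (g : ({i // i ∉ J} → β) → ℝ) :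
    ∑ z : ι → β, f (fun i => z i) * g (fun i => z i) = (∑ a, f a) * ∑ b, g b := by
  rw [Fintype.sum_mul_sum]
  rw [← Fintype.sum_prod_type' (f := fun a b => f a * g b)]
  exact Fintype.sum_equiv (Equiv.piEquivPiSubtypeProd (fun i => i ∈ J) (fun _ => β)) _ _
    fun z => rfl

variable {G : SimpleGraph V}

/-- The splitting bound for one tuple. -/
theorem split_bound (hE : E1 V) {q : ℝ} (h0 : 0 ≤ q) (h1 : q ≤ 1) (Λ : Finset (Sym2 V))
    (U : Finset V) (hU : ∀ e ∈ Λ, ∀ v ∈ e, v ∈ U) {x : V} (hx : x ∈ U) {k : ℕ} (hk : 2 ≤ k)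
    (z : Fin k → V) :
    Ex q Λ (fun S => ind (∀ i, Cn S x (z i))) ≤
      ∑ u ∈ U, ∑ J ∈ (univ : Finset (Finset (Fin k))).filter
          (fun J => J.Nonempty ∧ (univ \ J).Nonempty),
        Ex q Λ (con x u) * (Ex q Λ (fun S => ind (∀ i ∈ J, Cn S u (z i))) *
          Ex q Λ (fun S => ind (∀ i ∈ univ \ J, Cn S u (z i)))) := by
  set 𝒥 := (univ : Finset (Finset (Fin k))).filter (fun J => J.Nonempty ∧ (univ \ J).Nonempty)
  have hpt : ∀ S ⊆ Λ, ind (∀ i, Cn S x (z i)) ≤
      ∑ u ∈ U, ∑ J ∈ 𝒥, ind (∃ S1 S2, S1 ⊆ S ∧ S2 ⊆ S ∧ Disjoint S1 S2 ∧ Cn S1 x u ∧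
        (∃ T1 T2, T1 ⊆ S2 ∧ T2 ⊆ S2 ∧ Disjoint T1 T2 ∧ (∀ i ∈ J, Cn T1 u (z i)) ∧
          ∀ i ∈ univ \ J, Cn T2 u (z i))) := by
    intro S hS
    by_cases h : ∀ i, Cn S x (z i)
    · rw [ind_true h]
      obtain ⟨u, hxu, J, -, hJ1, hJ2, hu⟩ := hE (Fin k) S x z univ
        (by rw [Finset.card_univ, Fintype.card_fin]; exact hk) (fun i _ => h i)
      have huU : u ∈ (U : Set V) := by
        refine Vale.Agent.P151.Cn_closed (S := S) (A := (U : Set V)) ?_ (mem_coe.2 hx) hxu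
        intro a _ b hab
        exact hU _ (hS hab) b (Sym2.mem_mk_right a b)
      have hJ𝒥 : J ∈ 𝒥 := Finset.mem_filter.2 ⟨Finset.mem_univ _, hJ1, hJ2⟩
      refine le_trans (le_of_eq (ind_true hu).symm) ?_
      refine le_trans (Finset.single_le_sum (f := fun J => ind (∃ S1 S2, S1 ⊆ S ∧ S2 ⊆ S ∧
        Disjoint S1 S2 ∧ Cn S1 x u ∧
        (∃ T1 T2, T1 ⊆ S2 ∧ T2 ⊆ S2 ∧ Disjoint T1 T2 ∧ (∀ i ∈ J, Cn T1 u (z i)) ∧
          ∀ i ∈ univ \ J, Cn T2 u (z i)))) (fun _ _ => ind_nonneg _) hJ𝒥) ?_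
      exact Finset.single_le_sum (f := fun u => ∑ J ∈ 𝒥, ind (∃ S1 S2, S1 ⊆ S ∧ S2 ⊆ S ∧
        Disjoint S1 S2 ∧ Cn S1 x u ∧
        (∃ T1 T2, T1 ⊆ S2 ∧ T2 ⊆ S2 ∧ Disjoint T1 T2 ∧ (∀ i ∈ J, Cn T1 u (z i)) ∧
          ∀ i ∈ univ \ J, Cn T2 u (z i))))
        (fun _ _ => Finset.sum_nonneg fun _ _ => ind_nonneg _) (mem_coe.1 huU)
    · rw [ind_false h]
      exact Finset.sum_nonneg fun _ _ => Finset.sum_nonneg fun _ _ => ind_nonneg _
  refine (Vale.Agent.P151.Ex_mono h0 h1 hpt).trans ?_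
  rw [Vale.Agent.P151.Ex_sum]
  refine Finset.sum_le_sum fun u _ => ?_
  rw [Vale.Agent.P151.Ex_sum]
  refine Finset.sum_le_sum fun J _ => ?_
  refine (bk h0 h1 Λ (fun S => Cn S x u)
    (fun S => ∃ T1 T2, T1 ⊆ S ∧ T2 ⊆ S ∧ Disjoint T1 T2 ∧ (∀ i ∈ J, Cn T1 u (z i)) ∧
      ∀ i ∈ univ \ J, Cn T2 u (z i)) (fun S S' h h' => h'.mono h) ?_).trans ?_
  · rintro S S' h ⟨T1, T2, hT1, hT2, h'⟩
    exact ⟨T1, T2, hT1.trans h, hT2.trans h, h'⟩
  · have e1 : Ex q Λ (con x u) = Ex q Λ (fun S => ind (Cn S x u)) :=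
      Vale.Agent.P151.Ex_congr q (fun S _ => con_eq_ind x u S)
    rw [e1]
    refine mul_le_mul_of_nonneg_left ?_ (Vale.Agent.P151.Ex_nonneg h0 h1 (fun _ _ => ind_nonneg _))
    exact bk h0 h1 Λ (fun S => ∀ i ∈ J, Cn S u (z i)) (fun S => ∀ i ∈ univ \ J, Cn S u (z i))
      (fun S S' h h' i hi => (h' i hi).mono h) (fun S S' h h' i hi => (h' i hi).mono h)

/-- The sum over all tuples of the product of the two block probabilities. -/
theorem sum_blocks {q : ℝ} (Λ : Finset (Sym2 V)) (U : Finset V)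
    (hU : ∀ e ∈ Λ, ∀ v ∈ e, v ∈ U) {u : V} (hu : u ∈ U) {k : ℕ} (J : Finset (Fin k)) :
    ∑ z : Fin k → U, Ex q Λ (fun S => ind (∀ i ∈ J, Cn S u (z i))) *
        Ex q Λ (fun S => ind (∀ i ∈ univ \ J, Cn S u (z i))) =
      Ex q Λ (fun S => (csz S u : ℝ) ^ J.card) * Ex q Λ (fun S => (csz S u : ℝ) ^ (k - J.card)) := by
  have e1 : Ex q Λ (fun S => (csz S u : ℝ) ^ J.card) =
      ∑ a : {i // i ∈ J} → U, Ex q Λ (fun S => ind (∀ i, Cn S u (a i))) := by
    rw [← Vale.Agent.P151.Ex_sum]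
    refine Vale.Agent.P151.Ex_congr q fun S hS => ?_
    rw [sum_tuples (fun e he => hU e (hS he)) hu, Fintype.card_coe]
  have e2 : Ex q Λ (fun S => (csz S u : ℝ) ^ (k - J.card)) =
      ∑ b : {i // i ∉ J} → U, Ex q Λ (fun S => ind (∀ i, Cn S u (b i))) := by
    rw [← Vale.Agent.P151.Ex_sum]
    refine Vale.Agent.P151.Ex_congr q fun S hS => ?_
    rw [sum_tuples (fun e he => hU e (hS he)) hu, Fintype.card_subtype_compl,
      Fintype.card_fin, Fintype.card_coe]
  rw [e1, e2, ← sum_factor J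
    (fun a : {i // i ∈ J} → U => Ex q Λ (fun S => ind (∀ i, Cn S u (a i : V))))
    (fun b : {i // i ∉ J} → U => Ex q Λ (fun S => ind (∀ i, Cn S u (b i : V))))]
  refine Finset.sum_congr rfl fun z _ => ?_
  congr 1
  · refine Vale.Agent.P151.Ex_congr q fun S _ => ind_congr ?_
    exact ⟨fun h i => h i.1 i.2, fun h i hi => h ⟨i, hi⟩⟩
  · refine Vale.Agent.P151.Ex_congr q fun S _ => ind_congr ?_
    exact ⟨fun h i => h i.1 (Finset.mem_sdiff.2 ⟨Finset.mem_univ _, i.2⟩),
      fun h i hi => h ⟨i, (Finset.mem_sdiff.1 hi).2⟩⟩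

theorem e2 (G : SimpleGraph V) (hE : E1 V) : E2 G := by
  intro k
  induction k using Nat.strong_induction_on with
  | _ k ih =>
    intro hk
    rcases hk.eq_or_lt with hk1 | hk2
    · refine ⟨1, one_pos, fun q X h0 h1 hX x F => ?_⟩
      subst hk1
      have h2 := hX (x, F)
      unfold vol at h2
      simpa using h2
    · have hk2' : 2 ≤ k := hk2
      choose C hC0 hC using ih
      set D : ℝ := 1 + ∑ m ∈ range k, (if h : m < k ∧ 1 ≤ m then C m h.1 h.2 else 0) with hD
      have hterm : ∀ m ∈ range k, 0 ≤ (if h : m < k ∧ 1 ≤ m then C m h.1 h.2 else 0) := by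
        intro m _
        split_ifs with h
        · exact (hC0 m h.1 h.2).le
        · exact le_rfl
      have hD0 : 0 < D := by
        have := Finset.sum_nonneg hterm
        rw [hD]
        linarith
      have hCD : ∀ m (h1 : m < k) (h2 : 1 ≤ m), C m h1 h2 ≤ D := by
        intro m h1 h2
        have h3 := Finset.single_le_sum hterm (Finset.mem_range.2 h1)
        rw [dif_pos ⟨h1, h2⟩] at h3
        rw [hD]
        linarith
      refine ⟨2 ^ k * (D * D), by positivity, fun q X h0 h1 hX x F => ?_⟩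
      have hX0 : 0 ≤ X := by
        refine le_trans ?_ (hX (x, F))
        exact Vale.Agent.P151.Ex_nonneg h0 h1 fun _ _ => Nat.cast_nonneg _
      set Λ := edgesIn G F with hΛ
      set U := insert x F with hUdef
      have hU : ∀ e ∈ Λ, ∀ v ∈ e, v ∈ U := fun e he v hv =>
        Finset.mem_insert_of_mem ((Vale.Agent.P151.mem_edgesIn.1 he).2 v hv)
      have hx : x ∈ U := Finset.mem_insert_self x F
      have hmom : ∀ m, 1 ≤ m → m < k → ∀ u, Ex q Λ (fun S => (csz S u : ℝ) ^ m) ≤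
          D * X ^ (2 * m - 1) := fun m hm1 hm2 u =>
        (hC m hm2 hm1 q X h0 h1 hX u F).trans
          (mul_le_mul_of_nonneg_right (hCD m hm2 hm1) (pow_nonneg hX0 _))
      set 𝒥 := (univ : Finset (Finset (Fin k))).filter
        (fun J => J.Nonempty ∧ (univ \ J).Nonempty) with h𝒥
      have hcon : ∀ u, 0 ≤ Ex q Λ (con x u) := fun u =>
        Vale.Agent.P151.Ex_nonneg h0 h1 fun S _ => Vale.Agent.P151.con_nonneg x u S
      have hpn : ∀ m u, 0 ≤ Ex q Λ (fun S => (csz S u : ℝ) ^ m) := fun m u =>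
        Vale.Agent.P151.Ex_nonneg h0 h1 fun S _ => pow_nonneg (Nat.cast_nonneg _) _
      calc Ex q Λ (fun S => (csz S x : ℝ) ^ k)
          = ∑ z : Fin k → U, Ex q Λ (fun S => ind (∀ i, Cn S x (z i))) := by
            rw [← Vale.Agent.P151.Ex_sum]
            refine Vale.Agent.P151.Ex_congr q fun S hS => ?_
            rw [sum_tuples (fun e he => hU e (hS he)) hx, Fintype.card_fin]
        _ ≤ ∑ z : Fin k → U, ∑ u ∈ U, ∑ J ∈ 𝒥,
            Ex q Λ (con x u) * (Ex q Λ (fun S => ind (∀ i ∈ J, Cn S u (z i))) *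
              Ex q Λ (fun S => ind (∀ i ∈ univ \ J, Cn S u (z i)))) :=
            Finset.sum_le_sum fun z _ => split_bound hE h0 h1 Λ U hU hx hk2' (fun i => z i)
        _ = ∑ u ∈ U, ∑ J ∈ 𝒥, Ex q Λ (con x u) *
            (Ex q Λ (fun S => (csz S u : ℝ) ^ J.card) *
              Ex q Λ (fun S => (csz S u : ℝ) ^ (k - J.card))) := by
            rw [Finset.sum_comm]
            refine Finset.sum_congr rfl fun u hu => ?_
            rw [Finset.sum_comm]
            refine Finset.sum_congr rfl fun J _ => ?_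
            rw [← Finset.mul_sum, sum_blocks Λ U hU hu J]
        _ ≤ ∑ u ∈ U, ∑ J ∈ 𝒥, Ex q Λ (con x u) * ((D * D) * X ^ (2 * k - 2)) := by
            refine Finset.sum_le_sum fun u _ => Finset.sum_le_sum fun J hJ => ?_
            refine mul_le_mul_of_nonneg_left ?_ (hcon u)
            obtain ⟨-, hJ1, hJ2⟩ := Finset.mem_filter.1 hJ
            have c1 : 1 ≤ J.card := hJ1.card_pos
            have c2 : 1 ≤ (univ \ J).card := hJ2.card_pos
            rw [Finset.card_sdiff_of_subset (Finset.subset_univ J), Finset.card_univ,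
              Fintype.card_fin] at c2
            have b1 := hmom J.card c1 (by omega) u
            have b2 := hmom (k - J.card) c2 (by omega) u
            calc Ex q Λ (fun S => (csz S u : ℝ) ^ J.card) *
                  Ex q Λ (fun S => (csz S u : ℝ) ^ (k - J.card))
                ≤ (D * X ^ (2 * J.card - 1)) * (D * X ^ (2 * (k - J.card) - 1)) :=
                  mul_le_mul b1 b2 (hpn _ _) (mul_nonneg hD0.le (pow_nonneg hX0 _))
              _ = (D * D) * X ^ (2 * k - 2) := by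
                  have e : 2 * k - 2 = (2 * J.card - 1) + (2 * (k - J.card) - 1) := by omega
                  rw [e, pow_add]
                  ring
        _ = (∑ u ∈ U, Ex q Λ (con x u)) * (𝒥.card * ((D * D) * X ^ (2 * k - 2))) := by
            rw [Finset.sum_mul]
            refine Finset.sum_congr rfl fun u _ => ?_
            rw [Finset.sum_const, nsmul_eq_mul]
            ring
        _ ≤ X * (2 ^ k * ((D * D) * X ^ (2 * k - 2))) := by
            have h3 : (𝒥.card : ℝ) ≤ 2 ^ k := by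
              have h4 : 𝒥.card ≤ 2 ^ k := by
                refine (Finset.card_filter_le _ _).trans ?_
                rw [Finset.card_univ, Fintype.card_finset, Fintype.card_fin]
              exact_mod_cast h4
            have h5 : 0 ≤ (D * D) * X ^ (2 * k - 2) := by positivity
            exact mul_le_mul (sum_con_le G h0 h1 hX F U x)
              (mul_le_mul_of_nonneg_right h3 h5) (mul_nonneg (Nat.cast_nonneg _) h5) hX0
        _ = 2 ^ k * (D * D) * X ^ (2 * k - 1) := by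
            have e : 2 * k - 1 = (2 * k - 2) + 1 := by omega
            rw [e, pow_succ]
            ring

end Vale.Agent.P165.H115
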