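import Vale.Agent.P165.H115.RadSub
import Vale.Agent.P165.H199.FinMain

/-!
The intrinsic radius of finite clusters above `p_c`.
-/

open Finset

set_option linter.unusedSectionVars false

namespace Vale.Agent.P165.H115

open Vale.Agent.P151 (Ex Cn cl csz edgesIn EV con tau)
open Vale.Agent.P165.LF Vale.Agent.P165.H794 Vale.Agent.P165.H199 Vale.Agent.P165.H177

variable {V : Type} [DecidableEq V] {G : SimpleGraph V}

/-- `P_q(intrinsic radius ≥ n, |K_x| < ∞) ≤ (C / n) exp(-c (q - p_c) n)` for all `q > p_c`. -/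
def RadFin (G : SimpleGraph V) : Prop :=
  ∃ c C : ℝ, 0 < c ∧ 0 < C ∧ ∀ q : ℝ, pc G < q → q ≤ 1 → ∀ (x : V) (n L : ℕ), 1 ≤ n →
    ∀ t : ℝ, 0 < t → t < 1 → ∃ F0 : Finset V, ∀ F : Finset V, F0 ⊆ F →
      Ex q (edgesIn G F) (fun S => ind (Rad S x n ∧ csz S x ≤ L) * t ^ csz S x) ≤
        C / n * Real.exp (-(c * (q - pc G) * n))

/-- The part of the cluster behind level `j` and the ball of radius `j` are disjoint. -/
theorem ncard_add_csz_le {Λ S : Finset (Sym2 V)} {x v : V} {j : ℕ}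
    (hv1 : v ∈ bl S x (j + 1)) (hv2 : v ∉ bl S x j) :
    (bl S x j).ncard + csz (S ∩ offE Λ (bl S x j)) v ≤ csz S x := by
  classical
  set Q := bl S x j with hQ
  have hd : Disjoint Q (cl (S ∩ offE Λ Q) v : Set V) := by
    rw [Set.disjoint_left]
    intro y hyQ hy
    have hy2 := Vale.Agent.P151.mem_cl.1 (Finset.mem_coe.1 hy)
    have h3 : y ∈ Qᶜ := by
      refine Vale.Agent.P151.Cn_closed (S := S ∩ offE Λ Q) (A := Qᶜ) ?_ hv2 hy2
      intro a _ b hab
      rw [Finset.mem_inter, mem_offE] at hab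
      exact hab.2.2 b (Sym2.mem_mk_right a b)
    exact h3 hyQ
  have hsub : Q ∪ (cl (S ∩ offE Λ Q) v : Set V) ⊆ (cl S x : Set V) := by
    refine Set.union_subset (bl_subset_cl S x j) ?_
    intro y hy
    have hy2 := Vale.Agent.P151.mem_cl.1 (Finset.mem_coe.1 hy)
    refine Finset.mem_coe.2 (Vale.Agent.P151.mem_cl.2 ((Cn_of_mem_bl hv1).trans ?_))
    exact Vale.Agent.P151.Cn.mono Finset.inter_subset_left hy2
  have h1 := Set.ncard_union_eq hd (bl_finite S x j) (Finset.finite_toSet _)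
  have h2 := Set.ncard_le_ncard hsub (Finset.finite_toSet _)
  rw [h1, Set.ncard_coe_finset, Set.ncard_coe_finset] at h2
  exact h2

/-- Exploration up to level `j + 1`, with penalization. -/
theorem rad_level_w {p : ℝ} (h0 : 0 ≤ p) (h1 : p ≤ 1) {u : ℝ} (hu0 : 0 ≤ u) (hu1 : u ≤ 1)
    {g : ℝ} {s : ℕ} (hs : 1 ≤ s)
    (hind : ∀ (x : V) (F : Finset V) (Λ : Finset (Sym2 V)), Λ ⊆ edgesIn G F →
      Ex p Λ (fun S => ind (Rad S x s) * u ^ csz S x) ≤ g) (j : ℕ)
    (x : V) (F : Finset V) (Λ : Finset (Sym2 V)) (hΛ : Λ ⊆ edgesIn G F) :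
    Ex p Λ (fun S => ind (Rad S x (j + 1 + s)) * u ^ csz S x) ≤
      Ex p Λ (fun S => (lsz (fun n => bl S x n) (j + 1) : ℝ) * u ^ (bl S x j).ncard) * g := by
  classical
  have hg : 0 ≤ g := le_trans (Vale.Agent.P151.Ex_nonneg h0 h1 fun S _ =>
    mul_nonneg (ind_nonneg _) (pow_nonneg hu0 _)) (hind x F Λ hΛ)
  set F' : Finset V := insert x F with hF'
  have hbl : ∀ S ⊆ Λ, ∀ n, bl S x n ⊆ (F' : Set V) := by
    intro S hS n y hy
    refine Vale.Agent.P151.Cn_closed (S := S) (A := (F' : Set V)) ?_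
      (Finset.mem_coe.2 (Finset.mem_insert_self x F)) (Cn_of_mem_bl hy)
    intro u _ v huv
    exact Finset.mem_coe.2 (Finset.mem_insert_of_mem
      (Vale.Agent.P151.mk_mem_edgesIn.1 (hΛ (hS huv))).2.2)
  set W : (ℕ → Set V) → Finset (Sym2 V) → ℝ := fun a U =>
    u ^ (a j).ncard * ∑ v ∈ F', ind (v ∈ a (j + 1) ∧ v ∉ a j) *
      (ind (Rad U v s) * u ^ csz U v) with hW
  have hW0 : ∀ a U, 0 ≤ W a U := fun a U => mul_nonneg (pow_nonneg hu0 _)
    (Finset.sum_nonneg fun v _ =>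
      mul_nonneg (ind_nonneg _) (mul_nonneg (ind_nonneg _) (pow_nonneg hu0 _)))
  have e1 : Ex p Λ (fun S => ind (Rad S x (j + 1 + s)) * u ^ csz S x) ≤
      Ex p Λ (fun S => W (bdat x j S) (S ∩ offE Λ (bdat x j S j))) := by
    refine Vale.Agent.P151.Ex_mono h0 h1 fun S hS => ?_
    by_cases hR : Rad S x (j + 1 + s)
    · rw [ind_true hR, one_mul]
      obtain ⟨y, hxy, hy⟩ := (rad_iff (by omega)).1 hR
      have hyj : y ∉ bl S x j := fun hc => hy (bl_mono_n (by omega) hc)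
      obtain ⟨v, hv1, hv2, hv3⟩ := exists_level hS hxy hyj
      have hbj : bdat x j S j = bl S x j := by
        unfold bdat; rw [min_eq_left (Nat.le_succ j)]
      have hbj1 : bdat x j S (j + 1) = bl S x (j + 1) := by
        unfold bdat; rw [min_self]
      have hRv : Rad (S ∩ offE Λ (bl S x j)) v s := by
        rw [rad_iff hs]
        refine ⟨y, hv3, fun hc => hy ?_⟩
        have h5 := bl_trans hv1 (bl_mono_S Finset.inter_subset_left v _ hc)
        exact bl_mono_n (by omega) h5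
      simp only [hW]
      rw [hbj, hbj1]
      have h6 : u ^ csz S x ≤ u ^ (bl S x j).ncard *
          (ind (v ∈ bl S x (j + 1) ∧ v ∉ bl S x j) *
            (ind (Rad (S ∩ offE Λ (bl S x j)) v s) * u ^ csz (S ∩ offE Λ (bl S x j)) v)) := by
        rw [ind_true ⟨hv1, hv2⟩, ind_true hRv, one_mul, one_mul, ← pow_add]
        exact pow_le_pow_of_le_one hu0 hu1 (ncard_add_csz_le hv1 hv2)
      refine h6.trans (mul_le_mul_of_nonneg_left ?_ (pow_nonneg hu0 _))
      exact Finset.single_le_sum (f := fun v =>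
        ind (v ∈ bl S x (j + 1) ∧ v ∉ bl S x j) *
          (ind (Rad (S ∩ offE Λ (bl S x j)) v s) * u ^ csz (S ∩ offE Λ (bl S x j)) v))
        (fun v _ => mul_nonneg (ind_nonneg _) (mul_nonneg (ind_nonneg _) (pow_nonneg hu0 _)))
        (Finset.mem_coe.1 (hbl S hS _ hv1))
    · rw [ind_false hR, zero_mul]
      exact hW0 _ _
  refine e1.trans ?_
  rw [explore_gen p Λ (bdat x j) (fun a => a j) (bdat_union Λ x j) W,
    ← Vale.Agent.P151.Ex_mul_const]
  refine Vale.Agent.P151.Ex_mono h0 h1 fun S hS => ?_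
  simp only [hW]
  rw [Vale.Agent.P151.Ex_const_mul, Vale.Agent.P151.Ex_sum]
  have hbj : bdat x j S j = bl S x j := by
    unfold bdat; rw [min_eq_left (Nat.le_succ j)]
  have hbj1 : bdat x j S (j + 1) = bl S x (j + 1) := by
    unfold bdat; rw [min_self]
  rw [hbj, hbj1]
  have e3 : ∀ v ∈ F', Ex p Λ (fun T => ind (v ∈ bl S x (j + 1) ∧ v ∉ bl S x j) *
      (ind (Rad (T ∩ offE Λ (bl S x j)) v s) * u ^ csz (T ∩ offE Λ (bl S x j)) v)) ≤
      ind (v ∈ bl S x (j + 1) ∧ v ∉ bl S x j) * g := by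
    intro v _
    rw [Vale.Agent.P151.Ex_const_mul,
      Ex_offE p Λ (bl S x j) (fun U => ind (Rad U v s) * u ^ csz U v)]
    exact mul_le_mul_of_nonneg_left
      (hind v F _ ((offE_subset Λ _).trans hΛ)) (ind_nonneg _)
  refine (mul_le_mul_of_nonneg_left (Finset.sum_le_sum e3) (pow_nonneg hu0 _)).trans ?_
  rw [← Finset.sum_mul]
  have e5 : ∑ v ∈ F', ind (v ∈ bl S x (j + 1) ∧ v ∉ bl S x j) =
      ((F'.filter fun v => v ∈ bl S x (j + 1) ∧ v ∉ bl S x j).card : ℝ) := by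
    rw [Finset.card_filter, Nat.cast_sum]
    refine Finset.sum_congr rfl fun v _ => ?_
    by_cases hv : v ∈ bl S x (j + 1) ∧ v ∉ bl S x j
    · rw [ind_true hv, if_pos hv, Nat.cast_one]
    · rw [ind_false hv, if_neg hv, Nat.cast_zero]
  rw [e5]
  have e6 : ((F'.filter fun v => v ∈ bl S x (j + 1) ∧ v ∉ bl S x j).card : ℝ) ≤
      (lsz (fun n => bl S x n) (j + 1) : ℝ) := by
    unfold lsz
    simp only [Nat.add_sub_cancel]
    rw [← Set.ncard_coe_finset, Nat.cast_le]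
    refine Set.ncard_le_ncard ?_ ((bl_finite S x (j + 1)).subset Set.sdiff_subset)
    intro v hv
    exact (Finset.mem_filter.1 (Finset.mem_coe.1 hv)).2
  calc u ^ (bl S x j).ncard *
        (((F'.filter fun v => v ∈ bl S x (j + 1) ∧ v ∉ bl S x j).card : ℝ) * g)
      ≤ u ^ (bl S x j).ncard * ((lsz (fun n => bl S x n) (j + 1) : ℝ) * g) :=
        mul_le_mul_of_nonneg_left (mul_le_mul_of_nonneg_right e6 hg) (pow_nonneg hu0 _)
    _ = (lsz (fun n => bl S x n) (j + 1) : ℝ) * u ^ (bl S x j).ncard * g := by ring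

/-- One step of length `2 r`. -/
theorem rad_gain_w {p X : ℝ} (h0 : 0 ≤ p) (h1 : p ≤ 1) {u : ℝ} (hu0 : 0 ≤ u) (hu1 : u ≤ 1)
    (hX : ∀ (r : ℕ) (x : V) (F : Finset V) (Λ : Finset (Sym2 V)), Λ ⊆ edgesIn G F →
      Ex p Λ (fun S => ∑ j ∈ Finset.Ico r (2 * r),
        (lsz (fun n => bl S x n) (j + 1) : ℝ) * u ^ (bl S x j).ncard) ≤ X)
    {g : ℝ} {s : ℕ} (hs : 1 ≤ s)
    (hind : ∀ (x : V) (F : Finset V) (Λ : Finset (Sym2 V)), Λ ⊆ edgesIn G F →
      Ex p Λ (fun S => ind (Rad S x s) * u ^ csz S x) ≤ g) (r : ℕ)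
    (x : V) (F : Finset V) (Λ : Finset (Sym2 V)) (hΛ : Λ ⊆ edgesIn G F) :
    (r : ℝ) * Ex p Λ (fun S => ind (Rad S x (2 * r + s)) * u ^ csz S x) ≤ X * g := by
  have hg : 0 ≤ g := le_trans (Vale.Agent.P151.Ex_nonneg h0 h1 fun S _ =>
    mul_nonneg (ind_nonneg _) (pow_nonneg hu0 _)) (hind x F Λ hΛ)
  have e1 : ∀ j ∈ Finset.Ico r (2 * r),
      Ex p Λ (fun S => ind (Rad S x (2 * r + s)) * u ^ csz S x) ≤
      Ex p Λ (fun S => (lsz (fun n => bl S x n) (j + 1) : ℝ) * u ^ (bl S x j).ncard) * g := by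
    intro j hj
    rw [Finset.mem_Ico] at hj
    refine le_trans ?_ (rad_level_w h0 h1 hu0 hu1 hs hind j x F Λ hΛ)
    exact Vale.Agent.P151.Ex_mono h0 h1 fun S _ => mul_le_mul_of_nonneg_right
      (ind_mono (rad_mono_n (by omega))) (pow_nonneg hu0 _)
  have e2 := Finset.sum_le_sum e1
  rw [Finset.sum_const, Nat.card_Ico, nsmul_eq_mul, ← Finset.sum_mul,
    ← Vale.Agent.P151.Ex_sum] at e2
  have e3 : ((2 * r - r : ℕ) : ℝ) = r := by
    congr 1
    omega
  rw [e3] at e2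
  exact e2.trans (mul_le_mul_of_nonneg_right (hX r x F Λ hΛ) hg)

/-- Iteration of the step. -/
theorem rad_iter_w {p X : ℝ} (h0 : 0 ≤ p) (h1 : p ≤ 1) {u : ℝ} (hu0 : 0 ≤ u) (hu1 : u ≤ 1)
    (hX : ∀ (r : ℕ) (x : V) (F : Finset V) (Λ : Finset (Sym2 V)), Λ ⊆ edgesIn G F →
      Ex p Λ (fun S => ∑ j ∈ Finset.Ico r (2 * r),
        (lsz (fun n => bl S x n) (j + 1) : ℝ) * u ^ (bl S x j).ncard) ≤ X)
    {r : ℕ} (hr : 1 ≤ r) (hrX : 2 * X ≤ r) {g : ℝ} (hg : 0 ≤ g) {s : ℕ} (hs : 1 ≤ s)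
    (hind : ∀ (x : V) (F : Finset V) (Λ : Finset (Sym2 V)), Λ ⊆ edgesIn G F →
      Ex p Λ (fun S => ind (Rad S x s) * u ^ csz S x) ≤ g) (j : ℕ) :
    ∀ (x : V) (F : Finset V) (Λ : Finset (Sym2 V)), Λ ⊆ edgesIn G F →
      Ex p Λ (fun S => ind (Rad S x (j * (2 * r) + s)) * u ^ csz S x) ≤ (1 / 2) ^ j * g := by
  induction j with
  | zero =>
    intro x F Λ hΛ
    rw [Nat.zero_mul, Nat.zero_add, pow_zero, one_mul]
    exact hind x F Λ hΛ
  | succ j ih =>
    intro x F Λ hΛ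
    have hr0 : (0 : ℝ) < r := by exact_mod_cast hr
    have hg2 : 0 ≤ (1 / 2 : ℝ) ^ j * g := by positivity
    have h2 := rad_gain_w h0 h1 hu0 hu1 hX (s := j * (2 * r) + s) (by omega) ih r x F Λ hΛ
    have h3 : 2 * r + (j * (2 * r) + s) = (j + 1) * (2 * r) + s := by ring
    rw [h3] at h2
    have h4 : X * ((1 / 2 : ℝ) ^ j * g) ≤ r / 2 * ((1 / 2 : ℝ) ^ j * g) :=
      mul_le_mul_of_nonneg_right (by linarith only [hrX]) hg2
    have h5 := h2.trans h4
    rw [pow_succ]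
    have h6 : (r : ℝ) * Ex p Λ (fun S => ind (Rad S x ((j + 1) * (2 * r) + s)) * u ^ csz S x) ≤
        r * ((1 / 2) ^ j * (1 / 2) * g) := by
      refine h5.trans (le_of_eq ?_)
      ring
    exact le_of_mul_le_mul_left h6 hr0

/-- The intrinsic ball grows at most by the factor `d + 1` in one step. -/
theorem ncard_bl_succ_le [G.LocallyFinite] {d : ℕ} (hd : ∀ x, G.degree x ≤ d) {F : Finset V}
    {S : Finset (Sym2 V)} (hS : S ⊆ edgesIn G F) (x : V) (j : ℕ) :
    (bl S x (j + 1)).ncard ≤ (d + 1) * (bl S x j).ncard := by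
  classical
  set D := (bl_finite S x j).toFinset with hD
  have hDc : (bl S x j).ncard = D.card := Set.ncard_eq_toFinset_card _ (bl_finite S x j)
  have hsub : bl S x (j + 1) ⊆
      ((D.biUnion fun w => insert w (G.neighborFinset w) : Finset V) : Set V) := by
    intro y hy
    rw [Finset.mem_coe, Finset.mem_biUnion]
    rcases bl_succ.1 hy with h | ⟨w, hw, he⟩
    · exact ⟨y, (Set.Finite.mem_toFinset _).2 h, Finset.mem_insert_self _ _⟩
    · refine ⟨w, (Set.Finite.mem_toFinset _).2 hw, Finset.mem_insert_of_mem ?_⟩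
      rw [SimpleGraph.mem_neighborFinset]
      exact (Vale.Agent.P151.mk_mem_edgesIn.1 (hS he)).1
  have h1 := Set.ncard_le_ncard hsub (Finset.finite_toSet _)
  rw [Set.ncard_coe_finset] at h1
  refine h1.trans (Finset.card_biUnion_le.trans ?_)
  rw [hDc, mul_comm, ← smul_eq_mul, ← Finset.sum_const]
  refine Finset.sum_le_sum fun w _ => ?_
  refine (Finset.card_insert_le _ _).trans ?_
  rw [SimpleGraph.card_neighborFinset_eq_degree]
  exact Nat.add_le_add_right (hd w) 1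

/-- The weighted sum of the levels is a geometric sum over the cluster. -/
theorem sum_level_le [G.LocallyFinite] {d : ℕ} (hd : ∀ x, G.degree x ≤ d) {w : ℝ} (hw0 : 0 ≤ w)
    (hw1 : w ≤ 1) {F : Finset V} {S : Finset (Sym2 V)} (hS : S ⊆ edgesIn G F) (x : V) (r : ℕ) :
    ∑ j ∈ Finset.Ico r (2 * r),
        (lsz (fun n => bl S x n) (j + 1) : ℝ) * (w ^ (d + 1)) ^ (bl S x j).ncard ≤
      ∑ i ∈ Finset.range (csz S x), w ^ (i + 1) := by
  have hstep : ∀ j, (lsz (fun n => bl S x n) (j + 1) : ℝ) * (w ^ (d + 1)) ^ (bl S x j).ncard ≤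
      ∑ i ∈ Finset.Ico (bl S x j).ncard (bl S x (j + 1)).ncard, w ^ (i + 1) := by
    intro j
    have h1 : lsz (fun n => bl S x n) (j + 1) + (bl S x j).ncard = (bl S x (j + 1)).ncard := by
      unfold lsz
      simp only [Nat.add_sub_cancel]
      exact Set.ncard_sdiff_add_ncard_of_subset (bl_mono_n (Nat.le_succ j))
        (bl_finite S x (j + 1))
    have h2 : (w ^ (d + 1)) ^ (bl S x j).ncard ≤ w ^ (bl S x (j + 1)).ncard := by
      rw [← pow_mul]
      exact pow_le_pow_of_le_one hw0 hw1 (ncard_bl_succ_le hd hS x j)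
    have h3 : (lsz (fun n => bl S x n) (j + 1) : ℝ) * w ^ (bl S x (j + 1)).ncard ≤
        ∑ i ∈ Finset.Ico (bl S x j).ncard (bl S x (j + 1)).ncard, w ^ (i + 1) := by
      have h4 : (lsz (fun n => bl S x n) (j + 1) : ℝ) * w ^ (bl S x (j + 1)).ncard =
          ∑ _i ∈ Finset.Ico (bl S x j).ncard (bl S x (j + 1)).ncard,
            w ^ (bl S x (j + 1)).ncard := by
        rw [Finset.sum_const, Nat.card_Ico, nsmul_eq_mul]
        congr 2
        omega
      rw [h4]
      refine Finset.sum_le_sum fun i hi => ?_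
      rw [Finset.mem_Ico] at hi
      exact pow_le_pow_of_le_one hw0 hw1 (by omega)
    exact (mul_le_mul_of_nonneg_left h2 (Nat.cast_nonneg _)).trans h3
  have key : ∀ n, r ≤ n → ∑ j ∈ Finset.Ico r n,
        (lsz (fun n => bl S x n) (j + 1) : ℝ) * (w ^ (d + 1)) ^ (bl S x j).ncard ≤
      ∑ i ∈ Finset.Ico (bl S x r).ncard (bl S x n).ncard, w ^ (i + 1) := by
    intro n hn
    induction n, hn using Nat.le_induction with
    | base => simp
    | succ n hrn ih =>
      rw [Finset.sum_Ico_succ_top (by omega)]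
      refine (add_le_add ih (hstep n)).trans (le_of_eq ?_)
      refine Finset.sum_Ico_consecutive _ ?_ ?_
      · exact Set.ncard_le_ncard (bl_mono_n hrn) (bl_finite S x n)
      · exact Set.ncard_le_ncard (bl_mono_n (Nat.le_succ n)) (bl_finite S x (n + 1))
  refine (key (2 * r) (by omega)).trans ?_
  refine Finset.sum_le_sum_of_subset_of_nonneg ?_ fun i _ _ => pow_nonneg hw0 _
  intro i hi
  rw [Finset.mem_Ico] at hi
  rw [Finset.mem_range]
  have h3 := Set.ncard_le_ncard (bl_subset_cl S x (2 * r)) (Finset.finite_toSet _)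
  rw [Set.ncard_coe_finset] at h3
  exact lt_of_lt_of_le hi.2 h3

theorem sum_sqrt_le (M : ℕ) : ∑ i ∈ Finset.range M, 1 / √((i : ℝ) + 1) ≤ 2 * √(M : ℝ) := by
  induction M with
  | zero => simp
  | succ M ih =>
    rw [Finset.sum_range_succ, Nat.cast_add_one]
    have ha := Real.sqrt_nonneg (M : ℝ)
    have hb : 0 < √((M : ℝ) + 1) := Real.sqrt_pos.2 (by positivity)
    have ha2 : √(M : ℝ) * √(M : ℝ) = M := Real.mul_self_sqrt (Nat.cast_nonneg M)
    have hb2 : √((M : ℝ) + 1) * √((M : ℝ) + 1) = (M : ℝ) + 1 :=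
      Real.mul_self_sqrt (by positivity)
    have h1 : 1 / √((M : ℝ) + 1) ≤ 2 * √((M : ℝ) + 1) - 2 * √(M : ℝ) := by
      rw [div_le_iff₀ hb]
      nlinarith only [ha2, hb2, sq_nonneg (√((M : ℝ) + 1) - √(M : ℝ))]
    linarith only [ih, h1]

theorem geom_le {w : ℝ} (hw0 : 0 ≤ w) (hw1 : w ≤ 1) (N : ℕ) :
    (1 - w) * ∑ i ∈ Finset.range N, w ^ (i + 1) ≤ 1 := by
  have h1 : (1 - w) * ∑ i ∈ Finset.range N, w ^ (i + 1) = w - w ^ (N + 1) := by
    induction N with
    | zero => simp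
    | succ N ih =>
      rw [Finset.sum_range_succ, mul_add, ih]
      ring
  rw [h1]
  have := pow_nonneg hw0 (N + 1)
  linarith only [this, hw1]

/-- The numerical bound. -/
theorem num_bound {ε C D : ℝ} (hε : 0 < ε) (hε1 : ε ≤ 1) (hC : 0 ≤ C) (hD : 1 ≤ D) (N : ℕ) :
    ∑ i ∈ Finset.range N, Real.exp (-(ε ^ 2 / D)) ^ (i + 1) *
      (C / √((i : ℝ) + 1) + C * ε) ≤ C * (2 + 4 * D) / ε := by
  have hD0 : 0 < D := by linarith only [hD]
  set w := Real.exp (-(ε ^ 2 / D)) with hw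
  set y : ℝ := ε ^ 2 / D with hy
  have hy0 : 0 < y := by positivity
  have hy1 : y ≤ 1 := by
    rw [hy, div_le_one hD0]
    nlinarith only [hε, hε1, hD]
  have hw0 : 0 < w := Real.exp_pos _
  have hw1 : w ≤ 1 := Real.exp_le_one_iff.2 (by linarith only [hy0])
  have h1w : y / 2 ≤ 1 - w := by
    have h1 := Real.add_one_le_exp y
    have h2 : w * Real.exp y = 1 := by
      rw [hw, ← Real.exp_add, neg_add_cancel, Real.exp_zero]
    nlinarith only [h1, h2, hy0, hy1, hw0, mul_pos hw0 hy0]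
  set M : ℕ := ⌊1 / ε ^ 2⌋₊ with hM
  have hpt : ∀ i : ℕ, 1 / √((i : ℝ) + 1) ≤ (if i < M then 1 / √((i : ℝ) + 1) else 0) + ε := by
    intro i
    split_ifs with h
    · linarith only [hε]
    · rw [zero_add]
      have h2 : 1 / ε ^ 2 < (i : ℝ) + 1 := by
        have h3 : M < i + 1 := by omega
        have h4 := Nat.lt_of_floor_lt h3
        exact_mod_cast h4
      have h5 : 1 / ε ≤ √((i : ℝ) + 1) := by
        refine Real.le_sqrt_of_sq_le ?_
        rw [div_pow, one_pow]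
        exact h2.le
      have h6 : 0 < √((i : ℝ) + 1) := lt_of_lt_of_le (by positivity) h5
      rw [div_le_iff₀ h6]
      rw [div_le_iff₀ hε] at h5
      linarith only [h5]
  have h3 : ∑ i ∈ Finset.range N, w ^ (i + 1) * (C / √((i : ℝ) + 1) + C * ε) ≤
      C * (∑ i ∈ Finset.range N, (if i < M then 1 / √((i : ℝ) + 1) else 0)) +
        2 * C * ε * ∑ i ∈ Finset.range N, w ^ (i + 1) := by
    rw [Finset.mul_sum, Finset.mul_sum, ← Finset.sum_add_distrib]
    refine Finset.sum_le_sum fun i _ => ?_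
    have h4 : 0 ≤ w ^ (i + 1) := by positivity
    have h5 : w ^ (i + 1) ≤ 1 := pow_le_one₀ hw0.le hw1
    have h6 := hpt i
    set b : ℝ := if i < M then 1 / √((i : ℝ) + 1) else 0 with hb
    have hb0 : 0 ≤ b := by
      rw [hb]
      split_ifs
      · positivity
      · exact le_rfl
    have h7 : C / √((i : ℝ) + 1) = C * (1 / √((i : ℝ) + 1)) := by ring
    rw [h7]
    have h8 : C * (1 / √((i : ℝ) + 1)) ≤ C * (b + ε) := mul_le_mul_of_nonneg_left h6 hC
    have h9 : w ^ (i + 1) * (C * (1 / √((i : ℝ) + 1)) + C * ε) ≤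
        w ^ (i + 1) * (C * (b + ε) + C * ε) :=
      mul_le_mul_of_nonneg_left (by linarith only [h8]) h4
    have h10 : w ^ (i + 1) * (C * b) ≤ 1 * (C * b) :=
      mul_le_mul_of_nonneg_right h5 (mul_nonneg hC hb0)
    calc _ ≤ _ := h9
      _ = w ^ (i + 1) * (C * b) + 2 * C * ε * w ^ (i + 1) := by ring
      _ ≤ 1 * (C * b) + 2 * C * ε * w ^ (i + 1) := by linarith only [h10]
      _ = _ := by ring
  have h4 : ∑ i ∈ Finset.range N, (if i < M then 1 / √((i : ℝ) + 1) else 0) ≤ 2 / ε := by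
    rw [← Finset.sum_filter]
    have h5 : ∑ i ∈ (Finset.range N).filter (fun i => i < M), 1 / √((i : ℝ) + 1) ≤
        ∑ i ∈ Finset.range M, 1 / √((i : ℝ) + 1) := by
      refine Finset.sum_le_sum_of_subset_of_nonneg ?_ fun i _ _ => by positivity
      intro i hi
      exact Finset.mem_range.2 (Finset.mem_filter.1 hi).2
    refine h5.trans ((sum_sqrt_le M).trans ?_)
    have h6 : (M : ℝ) ≤ 1 / ε ^ 2 := Nat.floor_le (by positivity)
    have h7 : √(M : ℝ) ≤ 1 / ε := by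
      rw [Real.sqrt_le_left (by positivity), div_pow, one_pow]
      exact h6
    calc 2 * √(M : ℝ) ≤ 2 * (1 / ε) := by linarith only [h7]
      _ = 2 / ε := by ring
  have h5 : ε * ∑ i ∈ Finset.range N, w ^ (i + 1) ≤ 2 * D / ε := by
    have h6 := geom_le hw0.le hw1 N
    have hS0 : 0 ≤ ∑ i ∈ Finset.range N, w ^ (i + 1) :=
      Finset.sum_nonneg fun i _ => by positivity
    set Sg := ∑ i ∈ Finset.range N, w ^ (i + 1) with hSg
    have h7 : y / 2 * Sg ≤ 1 := (mul_le_mul_of_nonneg_right h1w hS0).trans h6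
    rw [le_div_iff₀ hε]
    have h8 : y * D = ε ^ 2 := by
      rw [hy]
      field_simp
    calc ε * Sg * ε = (y * D) * Sg := by rw [h8]; ring
      _ = 2 * D * (y / 2 * Sg) := by ring
      _ ≤ 2 * D * 1 := mul_le_mul_of_nonneg_left h7 (by positivity)
      _ = 2 * D := mul_one _
  refine h3.trans ?_
  have h6 : C * (∑ i ∈ Finset.range N, (if i < M then 1 / √((i : ℝ) + 1) else 0)) ≤
      C * (2 / ε) := mul_le_mul_of_nonneg_left h4 hC
  have h7 : 2 * C * ε * ∑ i ∈ Finset.range N, w ^ (i + 1) ≤ 2 * C * (2 * D / ε) := by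
    rw [mul_assoc]
    exact mul_le_mul_of_nonneg_left h5 (by positivity)
  calc _ ≤ C * (2 / ε) + 2 * C * (2 * D / ε) := add_le_add h6 h7
    _ = C * (2 + 4 * D) / ε := by ring

/-- The expected weighted sum of the levels. -/
theorem level_sum_le [G.LocallyFinite] {d : ℕ} (hd : ∀ x, G.degree x ≤ d) {q ε C : ℝ}
    (h0 : 0 ≤ q) (h1 : q ≤ 1) (hε : 0 < ε) (hε1 : ε ≤ 1) (hC : 0 ≤ C)
    (htail : ∀ n : ℕ, 1 ≤ n → ∀ (x : V) (F : Finset V),
      Ex q (edgesIn G F) (fun S => ind (n ≤ csz S x)) ≤ C / √(n : ℝ) + C * ε)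
    (r : ℕ) (x : V) (F : Finset V) (Λ : Finset (Sym2 V)) (hΛ : Λ ⊆ edgesIn G F) :
    Ex q Λ (fun S => ∑ j ∈ Finset.Ico r (2 * r),
      (lsz (fun n => bl S x n) (j + 1) : ℝ) *
        (Real.exp (-(ε ^ 2 / ((d : ℝ) + 1))) ^ (d + 1)) ^ (bl S x j).ncard) ≤
      C * (2 + 4 * ((d : ℝ) + 1)) / ε := by
  set w := Real.exp (-(ε ^ 2 / ((d : ℝ) + 1))) with hw
  have hw0 : 0 < w := Real.exp_pos _
  have hy0 : 0 < ε ^ 2 / ((d : ℝ) + 1) := by positivity
  have hw1 : w ≤ 1 := Real.exp_le_one_iff.2 (by linarith only [hy0])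
  have e1 : Ex q Λ (fun S => ∑ j ∈ Finset.Ico r (2 * r),
      (lsz (fun n => bl S x n) (j + 1) : ℝ) * (w ^ (d + 1)) ^ (bl S x j).ncard) ≤
      Ex q Λ (fun S => ∑ i ∈ Finset.range (csz S x), w ^ (i + 1)) :=
    Vale.Agent.P151.Ex_mono h0 h1 fun S hS => sum_level_le hd hw0.le hw1 (hS.trans hΛ) x r
  have e2 : Ex q Λ (fun S => ∑ i ∈ Finset.range (csz S x), w ^ (i + 1)) ≤
      Ex q (edgesIn G F) (fun S => ∑ i ∈ Finset.range (csz S x), w ^ (i + 1)) := by
    refine Vale.Agent.P151.Ex_mono_set h0 h1 hΛ ?_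
    intro S T h
    exact Finset.sum_le_sum_of_subset_of_nonneg
      (Finset.range_subset_range.2 (Vale.Agent.P151.csz_mono h x))
      fun i _ _ => pow_nonneg hw0.le _
  set N := (insert x F).card with hN
  have e3 : Ex q (edgesIn G F) (fun S => ∑ i ∈ Finset.range (csz S x), w ^ (i + 1)) ≤
      Ex q (edgesIn G F) (fun S => ∑ i ∈ Finset.range N, w ^ (i + 1) * ind (i + 1 ≤ csz S x)) := by
    refine Vale.Agent.P151.Ex_mono h0 h1 fun S hS => ?_
    have h2 : csz S x ≤ N := Finset.card_le_card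
      (cl_subset_of (Finset.subset_insert x F) hS (Finset.mem_insert_self x F))
    refine le_of_eq ?_
    rw [← Finset.sum_subset (Finset.range_subset_range.2 h2)]
    · refine Finset.sum_congr rfl fun i hi => ?_
      have h3 : i + 1 ≤ csz S x := Finset.mem_range.1 hi
      rw [ind_true h3, mul_one]
    · intro i _ hi
      have h3 : ¬ i + 1 ≤ csz S x := fun h => hi (Finset.mem_range.2 h)
      rw [ind_false h3, mul_zero]
  have e4 : Ex q (edgesIn G F) (fun S => ∑ i ∈ Finset.range N,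
      w ^ (i + 1) * ind (i + 1 ≤ csz S x)) ≤
      ∑ i ∈ Finset.range N, w ^ (i + 1) * (C / √((i : ℝ) + 1) + C * ε) := by
    rw [Vale.Agent.P151.Ex_sum]
    refine Finset.sum_le_sum fun i _ => ?_
    rw [Vale.Agent.P151.Ex_const_mul]
    refine mul_le_mul_of_nonneg_left ?_ (pow_nonneg hw0.le _)
    have h2 := htail (i + 1) (by omega) x F
    rw [Nat.cast_add_one] at h2
    exact h2
  have hD : (1 : ℝ) ≤ (d : ℝ) + 1 := by
    have : (0 : ℝ) ≤ d := Nat.cast_nonneg d
    linarith only [this]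
  exact e1.trans (e2.trans (e3.trans (e4.trans (num_bound hε hε1 hC hD N))))

/-- The induction over the scales `4 ^ k`, up to a given scale. -/
theorem rad_pow_r {p : ℝ} (h0 : 0 ≤ p) (h1 : p ≤ 1) {C A : ℝ} (hC : 0 < C) (hA1 : 1 ≤ A)
    (hA : 512 * C ^ 2 ≤ A) {M : ℕ}
    (htail : ∀ n : ℕ, 1 ≤ n → n ≤ M → ∀ (x : V) (F : Finset V),
      Ex p (edgesIn G F) (fun S => ind (n ≤ csz S x)) ≤ C / √(n : ℝ)) (k : ℕ)
    (hk : 16 ^ k ≤ 16 * M) :
    ∀ (x : V) (F : Finset V) (Λ : Finset (Sym2 V)), Λ ⊆ edgesIn G F →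
      Ex p Λ (fun S => ind (Rad S x (4 ^ k))) ≤ A / 4 ^ k := by
  have hA0 : 0 < A := lt_of_lt_of_le one_pos hA1
  induction k with
  | zero =>
    intro x F Λ _
    simp only [pow_zero, div_one]
    exact (Vale.Agent.P151.Ex_le_const h0 h1 fun S _ => ind_le_one _).trans hA1
  | succ k ih =>
    intro x F Λ hΛ
    have hkM : 16 ^ k ≤ M := by
      rw [pow_succ] at hk
      omega
    have ih := ih (hkM.trans (by omega))
    set r : ℕ := 4 ^ k with hr
    have hr1 : 1 ≤ r := Nat.one_le_pow _ _ (by norm_num)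
    have hrR : (r : ℝ) = 4 ^ k := by rw [hr]; push_cast; rfl
    have hr0 : (0 : ℝ) < r := by exact_mod_cast hr1
    set t : ℝ := r / (8 * A) with ht
    have ht0 : 0 < t := by positivity
    have hstep := rad_step (G := G) h0 h1 ht0.le (g := A / r) (by positivity) hr1
      (fun x F Λ h => by rw [hrR]; exact ih x F Λ h) x F Λ hΛ
    have hmono : Ex p Λ (fun S => ind (Rad S x (4 ^ (k + 1)))) ≤
        Ex p Λ (fun S => ind (Rad S x (3 * r + 1))) := by
      refine Vale.Agent.P151.Ex_mono h0 h1 fun S _ => ind_mono (rad_mono_n ?_)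
      rw [pow_succ, ← hr]
      omega
    refine hmono.trans (hstep.trans ?_)
    have htr : 0 < t * r := mul_pos ht0 hr0
    have hceil : 1 ≤ ⌈t * r⌉₊ := Nat.one_le_iff_ne_zero.2 (Nat.ceil_pos.2 htr).ne'
    have hceil2 : ⌈t * r⌉₊ ≤ M := by
      refine le_trans (Nat.ceil_le.2 ?_) hkM
      have h16 : ((16 ^ k : ℕ) : ℝ) = r * r := by
        rw [hrR]
        push_cast
        rw [← mul_pow]
        norm_num
      rw [h16, ht, div_mul_eq_mul_div, div_le_iff₀ (by positivity)]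
      nlinarith only [mul_pos hr0 hr0, hA1]
    have e1 := htail ⌈t * r⌉₊ hceil hceil2 x F
    have e2 : C / √((⌈t * r⌉₊ : ℕ) : ℝ) ≤ C / √(t * r) :=
      div_le_div_of_nonneg_left hC.le (Real.sqrt_pos.2 htr) (Real.sqrt_le_sqrt (Nat.le_ceil _))
    have e3 : √(t * r) = r / √(8 * A) := by
      have : t * r = (r : ℝ) ^ 2 / (8 * A) := by rw [ht]; ring
      rw [this, Real.sqrt_div (sq_nonneg _), Real.sqrt_sq hr0.le]
    have h8A : 0 < √(8 * A) := Real.sqrt_pos.2 (by positivity)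
    have e4 : C * √(8 * A) ≤ A / 8 := by
      have h5 : (C * √(8 * A)) ^ 2 ≤ (A / 8) ^ 2 := by
        rw [mul_pow, Real.sq_sqrt (by positivity)]
        nlinarith only [hA, hA0]
      exact le_of_sq_le_sq h5 (by positivity)
    have e5 : C / √(t * r) ≤ A / 8 / r := by
      rw [e3, div_div_eq_mul_div]
      exact div_le_div_of_nonneg_right e4 hr0.le
    have e6 : t * (A / r) ^ 2 = A / 8 / r := by
      rw [ht]
      field_simp
    have e7 : A / 4 ^ (k + 1) = A / 8 / r + A / 8 / r := by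
      rw [hrR, pow_succ]
      field_simp
      norm_num
    rw [e6, e7]
    exact add_le_add (e1.trans (e2.trans e5)) le_rfl

/-- The bound `C / n` at scales `n` with `n ^ 2 ≤ M`. -/
theorem rad_base {p : ℝ} (h0 : 0 ≤ p) (h1 : p ≤ 1) {C A : ℝ} (hC : 0 < C) (hA1 : 1 ≤ A)
    (hA : 512 * C ^ 2 ≤ A) {M : ℕ}
    (htail : ∀ n : ℕ, 1 ≤ n → n ≤ M → ∀ (x : V) (F : Finset V),
      Ex p (edgesIn G F) (fun S => ind (n ≤ csz S x)) ≤ C / √(n : ℝ)) (n : ℕ) (hn : 1 ≤ n)
    (hnM : n ^ 2 ≤ M)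
    (x : V) (F : Finset V) (Λ : Finset (Sym2 V)) (hΛ : Λ ⊆ edgesIn G F) :
    Ex p Λ (fun S => ind (Rad S x n)) ≤ 4 * A / n := by
  have hA0 : 0 < A := lt_of_lt_of_le one_pos hA1
  have hn0 : (0 : ℝ) < n := by exact_mod_cast hn
  set k := Nat.log 4 n with hk
  have h4 : 4 ^ k ≤ n := Nat.pow_log_le_self 4 (by omega)
  have h5 : n < 4 ^ (k + 1) := Nat.lt_pow_succ_log_self (by norm_num) n
  have h16 : 16 ^ k ≤ 16 * M := by
    have h2 : (16 : ℕ) ^ k = (4 ^ k) ^ 2 := by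
      rw [← pow_mul, mul_comm, pow_mul]
      norm_num
    rw [h2]
    have h3 := Nat.pow_le_pow_left h4 2
    omega
  have h6 := rad_pow_r (G := G) h0 h1 hC hA1 hA htail k h16 x F Λ hΛ
  have h7 : Ex p Λ (fun S => ind (Rad S x n)) ≤ Ex p Λ (fun S => ind (Rad S x (4 ^ k))) :=
    Vale.Agent.P151.Ex_mono h0 h1 fun S _ => ind_mono (rad_mono_n h4)
  refine h7.trans (h6.trans ?_)
  have h8 : (n : ℝ) ≤ 4 * 4 ^ k := by
    have : (n : ℝ) < 4 ^ (k + 1) := by exact_mod_cast h5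
    rw [pow_succ] at this
    linarith only [this]
  have h9 : (0 : ℝ) < 4 ^ k := by positivity
  rw [div_le_div_iff₀ h9 hn0]
  nlinarith only [h8, hA0]

theorem half_pow_le (j : ℕ) : (1 / 2 : ℝ) ^ j ≤ Real.exp (-(j / 2)) := by
  have h5 : (1 / 2 : ℝ) ≤ Real.exp (-(1 / 2)) := by
    have := Real.add_one_le_exp (-(1 / 2) : ℝ)
    linarith only [this]
  have h6 : (1 / 2 : ℝ) ^ j ≤ Real.exp (-(1 / 2)) ^ j :=
    pow_le_pow_left₀ (by norm_num) h5 j
  rw [← Real.exp_nat_mul] at h6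
  refine h6.trans (le_of_eq ?_)
  congr 1
  ring

/-- Exponential decay of the penalized radius above `p_c`. -/
theorem rad_decay [Infinite V] [G.LocallyFinite] (hG : G.Connected)
    (hqt : IsQuasiTransitive G) (hna : 0 < vertexCheeger G) :
    ∃ c K : ℝ, 0 < c ∧ 0 < K ∧ ∀ q : ℝ, pc G < q → q ≤ 1 → ∀ n : ℕ, 1 ≤ n →
      ∀ (x : V) (F : Finset V) (Λ : Finset (Sym2 V)), Λ ⊆ edgesIn G F →
        Ex q Λ (fun S => ind (Rad S x n) * Real.exp (-((q - pc G) ^ 2)) ^ csz S x) ≤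
          K / n * Real.exp (-(c * (q - pc G) * n)) := by
  have hpc0 := pc_pos (G := G) hG hqt
  obtain ⟨C, hC, htail⟩ := tail_above (G := G) hG hqt hna
  obtain ⟨d, hd1, hd⟩ := LF.exists_degree_bound (G := G) hqt
  set A := max 1 (512 * (2 * C) ^ 2) with hA
  have hA1 : 1 ≤ A := le_max_left _ _
  have hA2 : 512 * (2 * C) ^ 2 ≤ A := le_max_right _ _
  have hA0 : 0 < A := lt_of_lt_of_le one_pos hA1
  set D₀ : ℝ := C * (2 + 4 * ((d : ℝ) + 1)) with hD₀
  have hD₀0 : 0 < D₀ := by positivity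
  set D : ℝ := 2 * D₀ + 1 with hD
  have hD1 : 1 ≤ D := by linarith only [hD, hD₀0]
  have hD0 : 0 < D := by linarith only [hD1]
  refine ⟨1 / (8 * D), 192 * A * D, by positivity, by positivity,
    fun q hq hq1 n hn x F Λ hΛ => ?_⟩
  have hq0 : 0 ≤ q := (hpc0.trans hq).le
  have hn0 : (0 : ℝ) < n := by exact_mod_cast hn
  set ε : ℝ := q - pc G with hεdef
  have hε : 0 < ε := by linarith only [hεdef, hq]
  have hε1 : ε ≤ 1 := by linarith only [hεdef, hq1, hpc0]
  set u : ℝ := Real.exp (-(ε ^ 2)) with hu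
  have hu0 : 0 < u := Real.exp_pos _
  have hu1 : u ≤ 1 := Real.exp_le_one_iff.2 (by
    have : 0 < ε ^ 2 := by positivity
    linarith only [this])
  have huw : Real.exp (-(ε ^ 2 / ((d : ℝ) + 1))) ^ (d + 1) = u := by
    rw [← Real.exp_nat_mul, hu]
    congr 1
    push_cast
    field_simp
  set M : ℕ := ⌊1 / ε ^ 2⌋₊ with hM
  have htail2 : ∀ n : ℕ, 1 ≤ n → ∀ (x : V) (F : Finset V),
      Ex q (edgesIn G F) (fun S => ind (n ≤ csz S x)) ≤ C / √(n : ℝ) + C * ε :=
    fun n hn x F => htail q hq.le hq1 n hn x F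
  have htail3 : ∀ n : ℕ, 1 ≤ n → n ≤ M → ∀ (x : V) (F : Finset V),
      Ex q (edgesIn G F) (fun S => ind (n ≤ csz S x)) ≤ 2 * C / √(n : ℝ) := by
    intro n hn hnM x F
    have hn0 : (0 : ℝ) < n := by exact_mod_cast hn
    have hsn : 0 < √(n : ℝ) := Real.sqrt_pos.2 hn0
    refine (htail2 n hn x F).trans ?_
    have h2 : (n : ℝ) ≤ 1 / ε ^ 2 := (Nat.cast_le.2 hnM).trans (Nat.floor_le (by positivity))
    have h3 : √(n : ℝ) ≤ 1 / ε := by
      rw [Real.sqrt_le_left (by positivity), div_pow, one_pow]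
      exact h2
    have h4 : ε ≤ 1 / √(n : ℝ) := by
      rw [le_div_iff₀ hsn]
      rw [le_div_iff₀ hε] at h3
      linarith only [h3]
    have h5 : C * ε ≤ C * (1 / √(n : ℝ)) := mul_le_mul_of_nonneg_left h4 hC.le
    calc C / √(n : ℝ) + C * ε ≤ C / √(n : ℝ) + C * (1 / √(n : ℝ)) := by linarith only [h5]
      _ = 2 * C / √(n : ℝ) := by ring
  have hbase : ∀ n : ℕ, 1 ≤ n → n ^ 2 ≤ M → ∀ (x : V) (F : Finset V) (Λ : Finset (Sym2 V)),
      Λ ⊆ edgesIn G F → Ex q Λ (fun S => ind (Rad S x n) * u ^ csz S x) ≤ 4 * A / n := by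
    intro n hn hnM x F Λ hΛ
    refine le_trans (Vale.Agent.P151.Ex_mono hq0 hq1 fun S _ => ?_)
      (rad_base hq0 hq1 (by positivity : 0 < 2 * C) hA1 hA2 htail3 n hn hnM x F Λ hΛ)
    exact mul_le_of_le_one_right (ind_nonneg _) (pow_le_one₀ hu0.le hu1)
  have hsqM : ∀ n : ℕ, (n : ℝ) ≤ 1 / ε → n ^ 2 ≤ M := by
    intro n h
    refine Nat.le_floor ?_
    push_cast
    have h2 : (1 / ε) ^ 2 = 1 / ε ^ 2 := by rw [div_pow, one_pow]
    rw [← h2]
    exact pow_le_pow_left₀ (Nat.cast_nonneg n) h 2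
  rcases le_or_gt (n : ℝ) (1 / ε) with hcase | hcase
  · refine (hbase n hn (hsqM n hcase) x F Λ hΛ).trans ?_
    have h2 : n * ε ≤ 1 := by
      rw [le_div_iff₀ hε] at hcase
      exact hcase
    have h3 : 1 / (8 * D) * ε * n ≤ 1 / 8 := by
      have h4 : 1 / (8 * D) ≤ 1 / 8 := one_div_le_one_div_of_le (by norm_num) (by linarith only [hD1])
      have h5 : 0 ≤ n * ε := by positivity
      have h6 : 0 < 1 / (8 * D) := by positivity
      nlinarith only [h4, h2, h5, h6]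
    have h4 : (1 : ℝ) / 2 ≤ Real.exp (-(1 / (8 * D) * ε * n)) := by
      have := Real.add_one_le_exp (-(1 / (8 * D) * ε * n))
      linarith only [this, h3]
    have h5 : 4 * A / n ≤ 192 * A * D / n * (1 / 2) := by
      rw [div_mul_eq_mul_div]
      refine div_le_div_of_nonneg_right ?_ hn0.le
      nlinarith only [hA0, hD1, mul_pos hA0 hD0]
    exact h5.trans (mul_le_mul_of_nonneg_left h4 (by positivity))
  · set s : ℕ := ⌊1 / ε⌋₊ with hs
    have h1ε : 1 ≤ 1 / ε := by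
      rw [le_div_iff₀ hε]
      linarith only [hε1]
    have hs1 : 1 ≤ s := Nat.le_floor (by simpa using h1ε)
    have hs2 : (s : ℝ) ≤ 1 / ε := Nat.floor_le (by positivity)
    have hs3 : 1 / ε < (s : ℝ) + 1 := Nat.lt_floor_add_one _
    have hs1R : (1 : ℝ) ≤ s := by exact_mod_cast hs1
    have hs0 : (0 : ℝ) < s := by linarith only [hs1R]
    have hg : 4 * A / s ≤ 8 * A * ε := by
      rw [div_le_iff₀ hs0]
      have h2 : 1 ≤ 2 * (s * ε) := by
        rw [div_lt_iff₀ hε] at hs3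
        nlinarith only [hs3, hs1R, hε]
      nlinarith only [h2, hA0]
    have hind : ∀ (x : V) (F : Finset V) (Λ : Finset (Sym2 V)), Λ ⊆ edgesIn G F →
        Ex q Λ (fun S => ind (Rad S x s) * u ^ csz S x) ≤ 8 * A * ε :=
      fun x F Λ hΛ => (hbase s hs1 (hsqM s hs2) x F Λ hΛ).trans hg
    set r : ℕ := ⌈2 * (D₀ / ε)⌉₊ with hr
    have hCu : 0 < 2 * (D₀ / ε) := by positivity
    have hr1 : 1 ≤ r := Nat.one_le_iff_ne_zero.2 (Nat.ceil_pos.2 hCu).ne'
    have hr0 : (0 : ℝ) < r := by exact_mod_cast hr1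
    have hrX : 2 * (D₀ / ε) ≤ r := Nat.le_ceil _
    have hrub : (r : ℝ) * ε ≤ D := by
      have h2 : (r : ℝ) < 2 * (D₀ / ε) + 1 := Nat.ceil_lt_add_one hCu.le
      have h3 : (2 * (D₀ / ε) + 1) * ε = 2 * D₀ + ε := by
        field_simp
      have h4 : r * ε ≤ (2 * (D₀ / ε) + 1) * ε := mul_le_mul_of_nonneg_right h2.le hε.le
      rw [h3] at h4
      linarith only [h4, hε1, hD]
    have hX : ∀ (r : ℕ) (x : V) (F : Finset V) (Λ : Finset (Sym2 V)), Λ ⊆ edgesIn G F →
        Ex q Λ (fun S => ∑ j ∈ Finset.Ico r (2 * r),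
          (lsz (fun n => bl S x n) (j + 1) : ℝ) * u ^ (bl S x j).ncard) ≤ D₀ / ε := by
      intro r x F Λ hΛ
      have h2 := level_sum_le hd hq0 hq1 hε hε1 hC.le htail2 r x F Λ hΛ
      rw [huw] at h2
      exact h2
    have hsn : s ≤ n := by
      have h2 : (s : ℝ) ≤ n := hs2.trans hcase.le
      exact_mod_cast h2
    set j : ℕ := (n - s) / (2 * r) with hj
    have hjn : j * (2 * r) ≤ n - s := Nat.div_mul_le_self (n - s) (2 * r)
    have hjn2 : n - s < (j + 1) * (2 * r) := by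
      have := Nat.lt_div_mul_add (a := n - s) (b := 2 * r) (by omega)
      rw [Nat.add_mul, Nat.one_mul]
      exact this
    have h2 := rad_iter_w hq0 hq1 hu0.le hu1 hX hr1 hrX (by positivity : 0 ≤ 8 * A * ε) hs1 hind j
      x F Λ hΛ
    have h3 : Ex q Λ (fun S => ind (Rad S x n) * u ^ csz S x) ≤
        Ex q Λ (fun S => ind (Rad S x (j * (2 * r) + s)) * u ^ csz S x) :=
      Vale.Agent.P151.Ex_mono hq0 hq1 fun S _ => mul_le_mul_of_nonneg_right
        (ind_mono (rad_mono_n (by omega))) (pow_nonneg hu0.le _)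
    refine h3.trans (h2.trans ?_)
    -- the number of steps
    have h4 : (n : ℝ) ≤ s + (j + 1) * (2 * r) := by
      have h5 : n ≤ s + (j + 1) * (2 * r) := by omega
      exact_mod_cast h5
    have h5 : ε * n ≤ 1 + (j + 1) * (2 * D) := by
      have h6 : ε * n ≤ ε * (s + (j + 1) * (2 * r)) := mul_le_mul_of_nonneg_left h4 hε.le
      have h7 : ε * s ≤ 1 := by
        rw [le_div_iff₀ hε] at hs2
        linarith only [hs2]
      have h8 : ((j : ℝ) + 1) * (2 * (r * ε)) ≤ (j + 1) * (2 * D) :=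
        mul_le_mul_of_nonneg_left (by linarith only [hrub]) (by positivity)
      nlinarith only [h6, h7, h8]
    have h6 : Real.exp (-((j : ℝ) / 2)) ≤ Real.exp 1 * Real.exp (-(1 / (4 * D) * (ε * n))) := by
      rw [← Real.exp_add]
      refine Real.exp_le_exp.2 ?_
      have h7 : 1 / (4 * D) * (ε * n) ≤ 1 / (4 * D) * (1 + (j + 1) * (2 * D)) :=
        mul_le_mul_of_nonneg_left h5 (by positivity)
      have h8 : 1 / (4 * D) * (1 + (j + 1) * (2 * D)) = 1 / (4 * D) + (j + 1) / 2 := by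
        field_simp
        ring
      have h9 : 1 / (4 * D) ≤ 1 / 4 :=
        one_div_le_one_div_of_le (by norm_num) (by linarith only [hD1])
      linarith only [h7, h8, h9]
    have he : Real.exp 1 ≤ 3 := by
      have := Real.exp_one_lt_d9
      linarith only [this]
    have h7 : ε * n * Real.exp (-(1 / (4 * D) * (ε * n))) ≤
        8 * D * Real.exp (-(1 / (8 * D) * ε * n)) := by
      have h8 := Real.add_one_le_exp (1 / (8 * D) * ε * n)
      have h9 : Real.exp (-(1 / (4 * D) * (ε * n))) =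
          Real.exp (-(1 / (8 * D) * ε * n)) * Real.exp (-(1 / (8 * D) * ε * n)) := by
        rw [← Real.exp_add]
        congr 1
        field_simp
        ring
      have h10 : Real.exp (1 / (8 * D) * ε * n) * Real.exp (-(1 / (8 * D) * ε * n)) = 1 := by
        rw [← Real.exp_add, add_neg_cancel, Real.exp_zero]
      have h11 : ε * n = 8 * D * (1 / (8 * D) * ε * n) := by
        field_simp
      rw [h9, ← mul_assoc]
      refine mul_le_mul_of_nonneg_right ?_ (Real.exp_pos _).le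
      have h12 : ε * n ≤ 8 * D * Real.exp (1 / (8 * D) * ε * n) := by
        have h13 : 8 * D * (1 / (8 * D) * ε * n) ≤ 8 * D * Real.exp (1 / (8 * D) * ε * n) :=
          mul_le_mul_of_nonneg_left (by linarith only [h8]) (by positivity)
        linarith only [h11, h13]
      calc ε * n * Real.exp (-(1 / (8 * D) * ε * n))
          ≤ 8 * D * Real.exp (1 / (8 * D) * ε * n) * Real.exp (-(1 / (8 * D) * ε * n)) :=
            mul_le_mul_of_nonneg_right h12 (Real.exp_pos _).le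
        _ = 8 * D := by rw [mul_assoc, h10, mul_one]
    have h8 := half_pow_le j
    have h9 : (1 / 2 : ℝ) ^ j ≤ 3 * Real.exp (-(1 / (4 * D) * (ε * n))) :=
      (h8.trans h6).trans (mul_le_mul_of_nonneg_right he (Real.exp_pos _).le)
    have h10 : (1 / 2 : ℝ) ^ j * (8 * A * ε) * n ≤
        192 * A * D * Real.exp (-(1 / (8 * D) * ε * n)) := by
      calc (1 / 2 : ℝ) ^ j * (8 * A * ε) * n = (1 / 2 : ℝ) ^ j * (8 * A * (ε * n)) := by ring
        _ ≤ 3 * Real.exp (-(1 / (4 * D) * (ε * n))) * (8 * A * (ε * n)) :=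
            mul_le_mul_of_nonneg_right h9 (by positivity)
        _ = 24 * A * (ε * n * Real.exp (-(1 / (4 * D) * (ε * n)))) := by ring
        _ ≤ 24 * A * (8 * D * Real.exp (-(1 / (8 * D) * ε * n))) :=
            mul_le_mul_of_nonneg_left h7 (by positivity)
        _ = 192 * A * D * Real.exp (-(1 / (8 * D) * ε * n)) := by ring
    rw [div_mul_eq_mul_div, le_div_iff₀ hn0]
    exact h10

/-- **The intrinsic radius of finite clusters above `p_c`.** -/
theorem radFin_of [Infinite V] [G.LocallyFinite] (hG : G.Connected)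
    (hqt : IsQuasiTransitive G) (hna : 0 < vertexCheeger G) (hT : FinTail G) : RadFin G := by
  have hpc0 := pc_pos (G := G) hG hqt
  obtain ⟨c₀, K, hc₀, hK, hdec⟩ := rad_decay (G := G) hG hqt hna
  obtain ⟨c₁, C₁, hc₁, hC₁, hfin⟩ := hT
  set A : ℝ := 2 / c₀ with hA
  have hA0 : 0 < A := by positivity
  set a : ℝ := c₁ / A with ha
  have ha0 : 0 < a := by positivity
  set K' : ℝ := √(2 * A / a) with hK'
  have hK'0 : 0 < K' := Real.sqrt_pos.2 (by positivity)
  refine ⟨min (c₀ / 2) (a / 2), K + C₁ * K', by positivity, by positivity,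
    fun q hq hq1 x n L hn t ht0 ht1 => ?_⟩
  have hq0 : 0 ≤ q := (hpc0.trans hq).le
  have hn0 : (0 : ℝ) < n := by exact_mod_cast hn
  set ε : ℝ := q - pc G with hεdef
  have hε : 0 < ε := by linarith only [hεdef, hq]
  have hε1 : ε ≤ 1 := by linarith only [hεdef, hq1, hpc0]
  have hnA : 0 < n / (A * ε) := by positivity
  set m : ℕ := ⌈n / (A * ε)⌉₊ with hm
  have hm1 : 1 ≤ m := Nat.one_le_iff_ne_zero.2 (Nat.ceil_pos.2 hnA).ne'
  have hm0 : (0 : ℝ) < m := by exact_mod_cast hm1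
  have hmn : n / (A * ε) ≤ m := Nat.le_ceil _
  obtain ⟨F0, hF0⟩ := hfin q hq hq1 x m L hm1 t ht0 ht1
  refine ⟨F0, fun F hF => ?_⟩
  have h1 := hF0 F hF
  have h2 := hdec q hq hq1 n hn x F (edgesIn G F) subset_rfl
  have hpt : Ex q (edgesIn G F) (fun S => ind (Rad S x n ∧ csz S x ≤ L) * t ^ csz S x) ≤
      Ex q (edgesIn G F) (fun S => ind (m ≤ csz S x ∧ csz S x ≤ L) * t ^ csz S x +
        Real.exp (ε * n / A) * (ind (Rad S x n) * Real.exp (-(ε ^ 2)) ^ csz S x)) := by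
    refine Vale.Agent.P151.Ex_mono hq0 hq1 fun S _ => ?_
    have hp1 : 0 ≤ ind (m ≤ csz S x ∧ csz S x ≤ L) * t ^ csz S x :=
      mul_nonneg (ind_nonneg _) (pow_nonneg ht0.le _)
    have hp2 : 0 ≤ Real.exp (ε * n / A) * (ind (Rad S x n) * Real.exp (-(ε ^ 2)) ^ csz S x) :=
      mul_nonneg (Real.exp_pos _).le (mul_nonneg (ind_nonneg _)
        (pow_nonneg (Real.exp_pos _).le _))
    by_cases hR : Rad S x n ∧ csz S x ≤ L
    · by_cases hcm : m ≤ csz S x
      · rw [ind_true hR, ind_true (⟨hcm, hR.2⟩ : m ≤ csz S x ∧ csz S x ≤ L)]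
        linarith only [hp2]
      · have h3 : (csz S x : ℝ) < n / (A * ε) := Nat.lt_ceil.1 (not_le.1 hcm)
        have h4 : 1 ≤ Real.exp (ε * n / A) * (ind (Rad S x n) *
            Real.exp (-(ε ^ 2)) ^ csz S x) := by
          rw [ind_true hR.1, one_mul, ← Real.exp_nat_mul, ← Real.exp_add]
          refine Real.one_le_exp ?_
          rw [lt_div_iff₀ (by positivity)] at h3
          have h5 : (csz S x : ℝ) * ε ^ 2 * A ≤ ε * n := by nlinarith only [h3, hε]
          have h6 : (csz S x : ℝ) * ε ^ 2 ≤ ε * n / A := by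
            rw [le_div_iff₀ hA0]
            exact h5
          linarith only [h6]
        have h5 : t ^ csz S x ≤ 1 := pow_le_one₀ ht0.le ht1.le
        rw [ind_true hR, one_mul]
        linarith only [h4, h5, hp1]
    · rw [ind_false hR, zero_mul]
      exact add_nonneg hp1 hp2
  refine hpt.trans ?_
  rw [Vale.Agent.P151.Ex_add, Vale.Agent.P151.Ex_const_mul]
  have hεn : 0 < ε * n := by positivity
  -- the second part
  have h3 : Real.exp (ε * n / A) * Ex q (edgesIn G F)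
      (fun S => ind (Rad S x n) * Real.exp (-(ε ^ 2)) ^ csz S x) ≤
      K / n * Real.exp (-(min (c₀ / 2) (a / 2) * ε * n)) := by
    refine (mul_le_mul_of_nonneg_left h2 (Real.exp_pos _).le).trans ?_
    have h4 : Real.exp (ε * n / A) * (K / n * Real.exp (-(c₀ * ε * n))) =
        K / n * Real.exp (-(c₀ / 2 * (ε * n))) := by
      have h5 : Real.exp (ε * n / A) * Real.exp (-(c₀ * ε * n)) =
          Real.exp (-(c₀ / 2 * (ε * n))) := by
        rw [← Real.exp_add, hA]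
        congr 1
        field_simp
        ring
      rw [← h5]
      ring
    rw [h4]
    refine mul_le_mul_of_nonneg_left (Real.exp_le_exp.2 ?_) (by positivity)
    have h5 : min (c₀ / 2) (a / 2) * (ε * n) ≤ c₀ / 2 * (ε * n) :=
      mul_le_mul_of_nonneg_right (min_le_left _ _) hεn.le
    linarith only [h5]
  -- the first part
  have h4 : C₁ / √(m : ℝ) * Real.exp (-(c₁ * ε ^ 2 * m)) ≤
      C₁ * K' / n * Real.exp (-(min (c₀ / 2) (a / 2) * ε * n)) := by
    have h5 : Real.exp (-(c₁ * ε ^ 2 * m)) ≤ Real.exp (-(a / 2 * (ε * n))) *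
        Real.exp (-(a / 2 * (ε * n))) := by
      rw [← Real.exp_add]
      refine Real.exp_le_exp.2 ?_
      have h6 : c₁ * ε ^ 2 * (n / (A * ε)) ≤ c₁ * ε ^ 2 * m :=
        mul_le_mul_of_nonneg_left hmn (by positivity)
      have h7 : c₁ * ε ^ 2 * (n / (A * ε)) = a * (ε * n) := by
        rw [ha]
        field_simp
      linarith only [h6, h7]
    have h6 : C₁ / √(m : ℝ) ≤ C₁ / √(n / (A * ε)) :=
      div_le_div_of_nonneg_left hC₁.le (Real.sqrt_pos.2 hnA) (Real.sqrt_le_sqrt hmn)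
    have h7 : 1 / √(n / (A * ε)) * Real.exp (-(a / 2 * (ε * n))) ≤ K' / n := by
      have h8 := mul_exp_le (√(a / 2 * (ε * n)))
      rw [Real.sq_sqrt (by positivity)] at h8
      rw [le_div_iff₀ hn0]
      have h9 : 1 / √(n / (A * ε)) * n = K' * √(a / 2 * (ε * n)) := by
        rw [hK', ← Real.sqrt_mul (by positivity)]
        have h10 : 2 * A / a * (a / 2 * (ε * n)) = A * ε * n := by
          field_simp
        rw [h10, one_div, inv_mul_eq_div, div_eq_iff (Real.sqrt_pos.2 hnA).ne',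
          ← Real.sqrt_mul (by positivity)]
        have h11 : A * ε * n * (n / (A * ε)) = n ^ 2 := by
          field_simp
        rw [h11, Real.sqrt_sq hn0.le]
      calc 1 / √(n / (A * ε)) * Real.exp (-(a / 2 * (ε * n))) * n
          = (1 / √(n / (A * ε)) * n) * Real.exp (-(a / 2 * (ε * n))) := by ring
        _ = K' * (√(a / 2 * (ε * n)) * Real.exp (-(a / 2 * (ε * n)))) := by rw [h9]; ring
        _ ≤ K' * 1 := mul_le_mul_of_nonneg_left h8 hK'0.le
        _ = K' := mul_one _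
    have h8 : Real.exp (-(a / 2 * (ε * n))) ≤ Real.exp (-(min (c₀ / 2) (a / 2) * ε * n)) := by
      refine Real.exp_le_exp.2 ?_
      have h5 : min (c₀ / 2) (a / 2) * (ε * n) ≤ a / 2 * (ε * n) :=
        mul_le_mul_of_nonneg_right (min_le_right _ _) hεn.le
      linarith only [h5]
    calc C₁ / √(m : ℝ) * Real.exp (-(c₁ * ε ^ 2 * m))
        ≤ C₁ / √(n / (A * ε)) * (Real.exp (-(a / 2 * (ε * n))) *
          Real.exp (-(a / 2 * (ε * n)))) :=
          mul_le_mul h6 h5 (Real.exp_pos _).le (by positivity)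
      _ = C₁ * (1 / √(n / (A * ε)) * Real.exp (-(a / 2 * (ε * n)))) *
          Real.exp (-(a / 2 * (ε * n))) := by ring
      _ ≤ C₁ * (K' / n) * Real.exp (-(min (c₀ / 2) (a / 2) * ε * n)) :=
          mul_le_mul (mul_le_mul_of_nonneg_left h7 hC₁.le) h8 (Real.exp_pos _).le
            (by positivity)
      _ = C₁ * K' / n * Real.exp (-(min (c₀ / 2) (a / 2) * ε * n)) := by ring
  calc _ ≤ C₁ * K' / n * Real.exp (-(min (c₀ / 2) (a / 2) * ε * n)) +
        K / n * Real.exp (-(min (c₀ / 2) (a / 2) * ε * n)) :=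
        add_le_add (h1.trans h4) h3
    _ = (K + C₁ * K') / n * Real.exp (-(min (c₀ / 2) (a / 2) * ε * n)) := by ring

/-- The intrinsic radius of finite clusters above `p_c`, unconditionally. -/
theorem radFin [Infinite V] [G.LocallyFinite] (hG : G.Connected)
    (hqt : IsQuasiTransitive G) (hna : 0 < vertexCheeger G) : RadFin G :=
  radFin_of hG hqt hna (Vale.Agent.P165.H199.finTail hG hqt hna)

end Vale.Agent.P165.H115
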