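import Vale.Agent.P165.H199.Mom

/-!
The intrinsic one-arm lower bound: `BintUp G → TailLow G → RadLow G`.
-/

open Finset

set_option linter.unusedSectionVars false

namespace Vale.Agent.P165.H115

open Vale.Agent.P151 (Ex Cn cl csz edgesIn EV con tau gr)
open Vale.Agent.P165.LF Vale.Agent.P165.H199 Vale.Agent.P165.H794

variable {V : Type} [DecidableEq V]

theorem Bn_mono {S T : Finset (Sym2 V)} (h : S ⊆ T) (x : V) (n : ℕ) : Bn S x n ⊆ Bn T x n := by
  rintro y ⟨w, hw⟩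
  exact ⟨w.mapLe (Vale.Agent.P151.gr_mono h), by rwa [SimpleGraph.Walk.length_mapLe]⟩

theorem Bn_subset_cl (S : Finset (Sym2 V)) (x : V) (n : ℕ) : Bn S x n ⊆ (cl S x : Set V) := by
  rintro y ⟨w, -⟩
  exact mem_coe.2 (Vale.Agent.P151.mem_cl.2 ⟨w⟩)

/-- A walk is a walk in the graph of its own edges. -/
theorem walk_in {S P : Finset (Sym2 V)} {x y : V} (w : (gr S).Walk x y)
    (h : ∀ e ∈ w.edges, e ∈ P) : ∃ w' : (gr P).Walk x y, w'.length = w.length := by
  induction w with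
  | nil => exact ⟨SimpleGraph.Walk.nil, rfl⟩
  | cons hadj w ih =>
    rw [SimpleGraph.Walk.edges_cons] at h
    obtain ⟨w', hw'⟩ := ih fun e he => h e (List.mem_cons_of_mem _ he)
    have h2 : (gr P).Adj _ _ :=
      Vale.Agent.P151.gr_adj.2 ⟨h _ (List.mem_cons_self ..), (Vale.Agent.P151.gr_adj.1 hadj).2⟩
    exact ⟨SimpleGraph.Walk.cons h2 w', by
      rw [SimpleGraph.Walk.length_cons, SimpleGraph.Walk.length_cons, hw']⟩

/-- The part of a walk after the last visit of `K`. -/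
theorem last_visit {S P : Finset (Sym2 V)} {K : Set V} (hPK : ∀ e ∈ P, ∀ v ∈ e, v ∈ K) {a z : V}
    (w : (gr S).Walk a z) :
    (∃ u ∈ K, ∃ w' : (gr (S \ P)).Walk u z, w'.length ≤ w.length) ∨
      ∃ w' : (gr (S \ P)).Walk a z, w'.length ≤ w.length := by
  induction w with
  | nil => exact Or.inr ⟨SimpleGraph.Walk.nil, le_rfl⟩
  | @cons a b c hadj w ih =>
    rw [SimpleGraph.Walk.length_cons]
    rcases ih with ⟨u, hu, w', hw'⟩ | ⟨w', hw'⟩
    · exact Or.inl ⟨u, hu, w', by omega⟩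
    · obtain ⟨hS, hne⟩ := Vale.Agent.P151.gr_adj.1 hadj
      by_cases hP : s(a, b) ∈ P
      · exact Or.inl ⟨b, hPK _ hP b (Sym2.mem_mk_right a b), w', by omega⟩
      · have h2 : (gr (S \ P)).Adj a b :=
          Vale.Agent.P151.gr_adj.2 ⟨mem_sdiff.2 ⟨hS, hP⟩, hne⟩
        exact Or.inr ⟨SimpleGraph.Walk.cons h2 w', by
          rw [SimpleGraph.Walk.length_cons]; omega⟩

/-- Splitting with lengths. -/
theorem split_dist {S : Finset (Sym2 V)} {x y z : V} {n : ℕ} (hy : y ∈ Bn S x n)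
    (hz : z ∈ Bn S x n) :
    ∃ u, Cn S x u ∧ ∃ S1 S2, S1 ⊆ S ∧ S2 ⊆ S ∧ Disjoint S1 S2 ∧ u ∈ Bn S1 x n ∧
      ∃ T1 T2, T1 ⊆ S2 ∧ T2 ⊆ S2 ∧ Disjoint T1 T2 ∧ y ∈ Bn T1 u n ∧ z ∈ Bn T2 u n := by
  classical
  obtain ⟨w0, hw0⟩ := hy
  obtain ⟨wz, hwz⟩ := hz
  set v := w0.bypass with hv
  have hvp : v.IsPath := w0.bypass_isPath
  have hvl : v.length ≤ n := (w0.length_bypass_le_length).trans hw0
  set P : Finset (Sym2 V) := v.edges.toFinset with hP
  have hPS : P ⊆ S := by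
    intro e he
    rw [hP, List.mem_toFinset] at he
    have := SimpleGraph.Walk.edges_subset_edgeSet v he
    induction e with
    | _ a b => exact (Vale.Agent.P151.gr_adj.1 this).1
  have hPK : ∀ e ∈ P, ∀ a ∈ e, a ∈ {a | a ∈ v.support} := by
    intro e he a ha
    rw [hP, List.mem_toFinset] at he
    exact v.mem_support_of_mem_edges he ha
  have hlast : ∃ u ∈ {a | a ∈ v.support}, ∃ w' : (gr (S \ P)).Walk u z, w'.length ≤ n := by
    rcases last_visit hPK wz with ⟨u, hu, w', hw'⟩ | ⟨w', hw'⟩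
    · exact ⟨u, hu, w', hw'.trans hwz⟩
    · exact ⟨x, v.start_mem_support, w', hw'.trans hwz⟩
  obtain ⟨u, hu, w', hw'⟩ := hlast
  have hu' : u ∈ v.support := hu
  set E1 : Finset (Sym2 V) := (v.takeUntil u hu').edges.toFinset with hE1
  set E2 : Finset (Sym2 V) := (v.dropUntil u hu').edges.toFinset with hE2
  have h1P : E1 ⊆ P := by
    intro e he
    rw [hE1, List.mem_toFinset] at he
    rw [hP, List.mem_toFinset]
    exact SimpleGraph.Walk.edges_takeUntil_subset_edges v hu' he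
  have h2P : E2 ⊆ P := by
    intro e he
    rw [hE2, List.mem_toFinset] at he
    rw [hP, List.mem_toFinset]
    exact SimpleGraph.Walk.edges_dropUntil_subset_edges v hu' he
  have h12 : Disjoint E1 E2 := by
    rw [Finset.disjoint_left]
    intro e he1 he2
    rw [hE1, List.mem_toFinset] at he1
    rw [hE2, List.mem_toFinset] at he2
    have hnd : v.edges.Nodup := hvp.isTrail.edges_nodup
    have hsp : v.edges = (v.takeUntil u hu').edges ++ (v.dropUntil u hu').edges := by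
      conv_lhs => rw [← SimpleGraph.Walk.take_spec v hu']
      rw [SimpleGraph.Walk.edges_append]
    rw [hsp] at hnd
    exact (List.nodup_append.1 hnd).2.2 e he1 e he2 rfl
  obtain ⟨w1, hw1⟩ := walk_in (P := E1) (v.takeUntil u hu') fun e he => List.mem_toFinset.2 he
  obtain ⟨w2, hw2⟩ := walk_in (P := E2) (v.dropUntil u hu') fun e he => List.mem_toFinset.2 he
  have hl1 : w1.length ≤ n := by
    rw [hw1]; exact (v.length_takeUntil_le_length hu').trans hvl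
  have hl2 : w2.length ≤ n := by
    rw [hw2]; exact (v.length_dropUntil_le_length hu').trans hvl
  refine ⟨u, ⟨w1.mapLe (Vale.Agent.P151.gr_mono (h1P.trans hPS))⟩, E1, E2 ∪ (S \ P),
    h1P.trans hPS, union_subset (h2P.trans hPS) sdiff_subset, ?_, ⟨w1, hl1⟩, E2, S \ P,
    subset_union_left, subset_union_right, ?_, ⟨w2, hl2⟩, ⟨w', hw'⟩⟩
  · rw [disjoint_union_right]
    exact ⟨h12, disjoint_of_subset_left h1P disjoint_sdiff⟩
  · exact disjoint_of_subset_left h2P disjoint_sdiff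

variable {G : SimpleGraph V}

/-- The size of the intrinsic ball as a sum. -/
theorem ncard_Bn {S : Finset (Sym2 V)} {U : Finset V} (hU : ∀ e ∈ S, ∀ v ∈ e, v ∈ U) {x : V}
    (hx : x ∈ U) (n : ℕ) : ((Bn S x n).ncard : ℝ) = ∑ y ∈ U, ind (y ∈ Bn S x n) := by
  classical
  have hsub : Bn S x n ⊆ (U : Set V) := by
    intro y hy
    have hc : Cn S x y := Vale.Agent.P151.mem_cl.1 (mem_coe.1 (Bn_subset_cl S x n hy))
    refine Vale.Agent.P151.Cn_closed (S := S) (A := (U : Set V)) ?_ (mem_coe.2 hx) hc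
    intro a _ b hab
    exact hU _ hab b (Sym2.mem_mk_right a b)
  have e1 : Bn S x n = ((U.filter fun y => y ∈ Bn S x n : Finset V) : Set V) := by
    ext y
    rw [mem_coe, mem_filter]
    exact ⟨fun h => ⟨mem_coe.1 (hsub h), h⟩, fun h => h.2⟩
  have e2 : (Bn S x n).ncard = (U.filter fun y => y ∈ Bn S x n).card := by
    conv_lhs => rw [e1]
    exact Set.ncard_coe_finset _
  rw [e2, Finset.card_filter]
  push_cast
  refine Finset.sum_congr rfl fun y _ => ?_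
  by_cases h : y ∈ Bn S x n
  · rw [ind_true h, if_pos h]
  · rw [ind_false h, if_neg h]

/-- The second moment of the intrinsic ball. -/
theorem second_moment_Bn {q : ℝ} (h0 : 0 ≤ q) (h1 : q ≤ 1) {n : ℕ} {b : ℝ} (F : Finset V)
    (hb : ∀ x, Ex q (edgesIn G F) (fun S => ((Bn S x n).ncard : ℝ)) ≤ b) (x : V) :
    Ex q (edgesIn G F) (fun S => ((Bn S x n).ncard : ℝ) ^ 2) ≤ b ^ 3 := by
  set Λ := edgesIn G F with hΛ
  set U := insert x F with hUdef
  have hU : ∀ e ∈ Λ, ∀ v ∈ e, v ∈ U := fun e he v hv =>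
    Finset.mem_insert_of_mem ((Vale.Agent.P151.mem_edgesIn.1 he).2 v hv)
  have hx : x ∈ U := Finset.mem_insert_self x F
  have hb0 : 0 ≤ b := le_trans (Vale.Agent.P151.Ex_nonneg h0 h1 fun _ _ => Nat.cast_nonneg _)
    (hb x)
  have hsum : ∀ u ∈ U, ∑ y ∈ U, Ex q Λ (fun S => ind (y ∈ Bn S u n)) ≤ b := by
    intro u hu
    rw [← Vale.Agent.P151.Ex_sum]
    refine (le_of_eq (Vale.Agent.P151.Ex_congr q fun S hS => ?_)).trans (hb u)
    exact (ncard_Bn (fun e he => hU e (hS he)) hu n).symm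
  have hnn : ∀ u y, 0 ≤ Ex q Λ (fun S => ind (y ∈ Bn S u n)) := fun u y =>
    Vale.Agent.P151.Ex_nonneg h0 h1 fun _ _ => ind_nonneg _
  have hmo : ∀ (u y : V) (S S' : Finset (Sym2 V)), S ⊆ S' → y ∈ Bn S u n → y ∈ Bn S' u n :=
    fun u y S S' h h' => Bn_mono h u n h'
  have hpt : ∀ y z, Ex q Λ (fun S => ind (y ∈ Bn S x n) * ind (z ∈ Bn S x n)) ≤
      ∑ u ∈ U, Ex q Λ (fun S => ind (u ∈ Bn S x n)) *
        (Ex q Λ (fun S => ind (y ∈ Bn S u n)) * Ex q Λ (fun S => ind (z ∈ Bn S u n))) := by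
    intro y z
    have h2 : ∀ S ⊆ Λ, ind (y ∈ Bn S x n) * ind (z ∈ Bn S x n) ≤
        ∑ u ∈ U, ind (∃ S1 S2, S1 ⊆ S ∧ S2 ⊆ S ∧ Disjoint S1 S2 ∧ u ∈ Bn S1 x n ∧
          (∃ T1 T2, T1 ⊆ S2 ∧ T2 ⊆ S2 ∧ Disjoint T1 T2 ∧ y ∈ Bn T1 u n ∧ z ∈ Bn T2 u n)) := by
      intro S hS
      rw [← ind_and]
      by_cases h : y ∈ Bn S x n ∧ z ∈ Bn S x n
      · rw [ind_true h]
        obtain ⟨u, hxu, hu⟩ := split_dist h.1 h.2
        have huU : u ∈ (U : Set V) := by
          refine Vale.Agent.P151.Cn_closed (S := S) (A := (U : Set V)) ?_ (mem_coe.2 hx) hxu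
          intro a _ b hab
          exact hU _ (hS hab) b (Sym2.mem_mk_right a b)
        refine le_trans (le_of_eq (ind_true hu).symm) ?_
        exact Finset.single_le_sum (f := fun u => ind (∃ S1 S2, S1 ⊆ S ∧ S2 ⊆ S ∧
          Disjoint S1 S2 ∧ u ∈ Bn S1 x n ∧
          (∃ T1 T2, T1 ⊆ S2 ∧ T2 ⊆ S2 ∧ Disjoint T1 T2 ∧ y ∈ Bn T1 u n ∧ z ∈ Bn T2 u n)))
          (fun _ _ => ind_nonneg _) (mem_coe.1 huU)
      · rw [ind_false h]
        exact Finset.sum_nonneg (fun _ _ => ind_nonneg _)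
    refine (Vale.Agent.P151.Ex_mono h0 h1 h2).trans ?_
    rw [Vale.Agent.P151.Ex_sum]
    refine Finset.sum_le_sum (fun u _ => ?_)
    refine (bk h0 h1 Λ (fun S => u ∈ Bn S x n)
      (fun S => ∃ T1 T2, T1 ⊆ S ∧ T2 ⊆ S ∧ Disjoint T1 T2 ∧ y ∈ Bn T1 u n ∧ z ∈ Bn T2 u n)
      (hmo x u) ?_).trans ?_
    · rintro S S' h ⟨T1, T2, hT1, hT2, h'⟩
      exact ⟨T1, T2, hT1.trans h, hT2.trans h, h'⟩
    · refine mul_le_mul_of_nonneg_left ?_ (hnn x u)
      exact bk h0 h1 Λ (fun S => y ∈ Bn S u n) (fun S => z ∈ Bn S u n) (hmo u y) (hmo u z)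
  calc Ex q Λ (fun S => ((Bn S x n).ncard : ℝ) ^ 2)
      = ∑ y ∈ U, ∑ z ∈ U, Ex q Λ (fun S => ind (y ∈ Bn S x n) * ind (z ∈ Bn S x n)) := by
        rw [Finset.sum_congr rfl fun y _ => (Vale.Agent.P151.Ex_sum q Λ U _).symm,
          ← Vale.Agent.P151.Ex_sum]
        refine Vale.Agent.P151.Ex_congr q fun S hS => ?_
        rw [ncard_Bn (fun e he => hU e (hS he)) hx n, pow_two, Finset.sum_mul_sum]
    _ ≤ ∑ y ∈ U, ∑ z ∈ U, ∑ u ∈ U, Ex q Λ (fun S => ind (u ∈ Bn S x n)) *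
        (Ex q Λ (fun S => ind (y ∈ Bn S u n)) * Ex q Λ (fun S => ind (z ∈ Bn S u n))) :=
        Finset.sum_le_sum fun y _ => Finset.sum_le_sum fun z _ => hpt y z
    _ = ∑ u ∈ U, Ex q Λ (fun S => ind (u ∈ Bn S x n)) *
        ((∑ y ∈ U, Ex q Λ (fun S => ind (y ∈ Bn S u n))) *
          ∑ z ∈ U, Ex q Λ (fun S => ind (z ∈ Bn S u n))) := by
        simp_rw [Finset.sum_mul_sum, Finset.mul_sum]
        rw [Finset.sum_congr rfl fun y _ => Finset.sum_comm, Finset.sum_comm]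
    _ ≤ ∑ u ∈ U, Ex q Λ (fun S => ind (u ∈ Bn S x n)) * (b * b) := by
        refine Finset.sum_le_sum fun u hu => mul_le_mul_of_nonneg_left ?_ (hnn x u)
        exact mul_le_mul (hsum u hu) (hsum u hu) (Finset.sum_nonneg fun z _ => hnn u z) hb0
    _ = (∑ u ∈ U, Ex q Λ (fun S => ind (u ∈ Bn S x n))) * (b * b) := by rw [Finset.sum_mul]
    _ ≤ b * (b * b) := mul_le_mul_of_nonneg_right (hsum x hx) (mul_nonneg hb0 hb0)
    _ = b ^ 3 := by ring

theorem Rad_or {S : Finset (Sym2 V)} {x : V} {n M : ℕ} (h : M ≤ csz S x) :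
    Rad S x n ∨ M ≤ (Bn S x n).ncard := by
  by_cases hR : Rad S x n
  · exact Or.inl hR
  · right
    refine h.trans ?_
    have hsub : (cl S x : Set V) ⊆ Bn S x n := by
      intro y hy
      by_contra hy'
      refine hR ⟨y, Vale.Agent.P151.mem_cl.1 (mem_coe.1 hy), fun w => ?_⟩
      by_contra hw
      push Not at hw
      exact hy' ⟨w, hw.le⟩
    have hfin : (Bn S x n).Finite := (cl S x).finite_toSet.subset (Bn_subset_cl S x n)
    have h2 := Set.ncard_le_ncard hsub hfin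
    rw [Set.ncard_coe_finset] at h2
    exact h2

/-- **The intrinsic one-arm lower bound.** -/
theorem radLow [G.LocallyFinite] [Infinite V] (hG : G.Connected) (hqt : IsQuasiTransitive G)
    (hB : BintUp G) (hT : TailLow G) : RadLow G := by
  obtain ⟨C, hC, hB⟩ := hB
  obtain ⟨c, hc, hT⟩ := hT
  have h0 : 0 ≤ pc G := (pc_pos hG hqt).le
  have h1 : pc G ≤ 1 := pc_le_one hG
  obtain ⟨a, ha⟩ := exists_nat_ge (max 1 (4 * C ^ 3 / c))
  have ha1 : (1 : ℝ) ≤ a := (le_max_left _ _).trans ha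
  have ha2 : 4 * C ^ 3 / c ≤ a := (le_max_right _ _).trans ha
  have ha0 : (0 : ℝ) < a := by linarith
  have haN : 1 ≤ a := by exact_mod_cast ha1
  refine ⟨c / (4 * a), by positivity, fun n hn x => ?_⟩
  have hn0 : (0 : ℝ) < n := by exact_mod_cast hn
  set M : ℕ := (a * n) ^ 2 with hM
  have hM1 : 1 ≤ M := Nat.one_le_pow _ _ (Nat.mul_pos haN hn)
  have hsq : √(M : ℝ) = a * n := by
    rw [hM]
    push_cast
    exact Real.sqrt_sq (by positivity)
  have h2 := hT M hM1 x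
  rw [hsq] at h2
  have h3 : c / (2 * (a * n)) < EV G (pc G) (fun S => ind (M ≤ csz S x)) := by
    refine lt_of_lt_of_le ?_ h2
    exact div_lt_div_of_pos_left hc (by positivity) (by nlinarith [mul_pos ha0 hn0])
  obtain ⟨F0, hF0⟩ := Vale.Agent.P151.exists_lt_Ex h3
  refine ⟨F0, fun F hF => ?_⟩
  have hm : Monotone fun S : Finset (Sym2 V) => ind (M ≤ csz S x) := fun S T hST =>
    ind_mono fun h => h.trans (Vale.Agent.P151.csz_mono hST x)
  have h4 := hF0.le.trans (Vale.Agent.P151.Ex_edgesIn_mono h0 h1 hm hF)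
  have hM0 : (0 : ℝ) < M := by exact_mod_cast hM1
  have h5 : Ex (pc G) (edgesIn G F) (fun S => ind (M ≤ csz S x)) ≤
      Ex (pc G) (edgesIn G F) (fun S => ind (Rad S x n)) +
        Ex (pc G) (edgesIn G F) (fun S => ((Bn S x n).ncard : ℝ) ^ 2 * (1 / (M : ℝ) ^ 2)) := by
    rw [← Vale.Agent.P151.Ex_add]
    refine Vale.Agent.P151.Ex_mono h0 h1 fun S _ => ?_
    by_cases h : M ≤ csz S x
    · rw [ind_true h]
      rcases Rad_or (n := n) h with h6 | h6
      · rw [ind_true h6]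
        have : 0 ≤ ((Bn S x n).ncard : ℝ) ^ 2 * (1 / (M : ℝ) ^ 2) := by positivity
        linarith
      · have h7 : (M : ℝ) ≤ (Bn S x n).ncard := by exact_mod_cast h6
        have h8 : (M : ℝ) ^ 2 ≤ ((Bn S x n).ncard : ℝ) ^ 2 := pow_le_pow_left₀ hM0.le h7 2
        have h9 : 1 ≤ ((Bn S x n).ncard : ℝ) ^ 2 * (1 / (M : ℝ) ^ 2) := by
          rw [mul_one_div, le_div_iff₀ (by positivity), one_mul]
          exact h8
        have h10 := ind_nonneg (Rad S x n)
        linarith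
    · rw [ind_false h]
      have := ind_nonneg (Rad S x n)
      positivity
  rw [Vale.Agent.P151.Ex_mul_const] at h5
  have h6 := second_moment_Bn h0 h1 F (fun y => hB n hn y F) x
  have h7 : Ex (pc G) (edgesIn G F) (fun S => ((Bn S x n).ncard : ℝ) ^ 2) * (1 / (M : ℝ) ^ 2) ≤
      (C * n) ^ 3 * (1 / (M : ℝ) ^ 2) := mul_le_mul_of_nonneg_right h6 (by positivity)
  have h8 : (C * n) ^ 3 * (1 / (M : ℝ) ^ 2) ≤ c / (4 * a) / n := by
    have e : (M : ℝ) = (a * n) ^ 2 := by rw [hM]; push_cast; ring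
    rw [e]
    rw [div_le_iff₀ hc] at ha2
    have e2 : (C * n) ^ 3 * (1 / ((a * (n : ℝ)) ^ 2) ^ 2) = C ^ 3 / (a ^ 4 * n) := by
      field_simp
    have e3 : c / (4 * a) / n = c / (4 * a * n) := by rw [div_div]
    rw [e2, e3, div_le_div_iff₀ (by positivity) (by positivity)]
    have h9 : (a : ℝ) ≤ a ^ 3 := by
      nlinarith [mul_nonneg ha0.le (mul_nonneg (sub_nonneg.2 ha1) (by linarith : (0 : ℝ) ≤ a + 1))]
    have h10 : 4 * C ^ 3 ≤ a ^ 3 * c := ha2.trans (mul_le_mul_of_nonneg_right h9 hc.le)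
    have h11 := mul_le_mul_of_nonneg_right h10 (mul_nonneg ha0.le hn0.le)
    nlinarith [h11]
  have h9 : c / (2 * (a * n)) = 2 * (c / (4 * a) / n) := by
    field_simp
    ring
  rw [h9] at h4
  linarith

end Vale.Agent.P165.H115
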