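import Vale.Agent.P165.H177.Rad

/-!
The intrinsic one-arm upper bound below `p_c`: correlation length exponent one.
-/

open Finset

set_option linter.unusedSectionVars false

namespace Vale.Agent.P165.H115

open Vale.Agent.P151 (Ex Cn cl csz edgesIn EV con tau)
open Vale.Agent.P165.LF Vale.Agent.P165.H794 Vale.Agent.P165.H199 Vale.Agent.P165.H177

variable {V : Type} [DecidableEq V] {G : SimpleGraph V}

/-- `P_q(intrinsic radius ≥ n) ≤ (C / n) exp(-c (p_c - q) n)` for all `q ≤ p_c`, in every finite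
subgraph. -/
def RadSub (G : SimpleGraph V) : Prop :=
  ∃ c C : ℝ, 0 < c ∧ 0 < C ∧ ∀ q : ℝ, 0 ≤ q → q ≤ pc G → ∀ n : ℕ, 1 ≤ n →
    ∀ (x : V) (F : Finset V) (Λ : Finset (Sym2 V)), Λ ⊆ edgesIn G F →
      Ex q Λ (fun S => ind (Rad S x n)) ≤ C / n * Real.exp (-(c * (pc G - q) * n))

/-- The bound `C / n` at a given parameter. -/
theorem rad_all {q : ℝ} (h0 : 0 ≤ q) (h1 : q ≤ 1) {C A : ℝ} (hC : 0 < C) (hA1 : 1 ≤ A)
    (hA2 : 512 * C ^ 2 ≤ A)
    (htail : ∀ n : ℕ, 1 ≤ n → ∀ (x : V) (F : Finset V),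
      Ex q (edgesIn G F) (fun S => ind (n ≤ csz S x)) ≤ C / √(n : ℝ)) (n : ℕ) (hn : 1 ≤ n)
    (x : V) (F : Finset V) (Λ : Finset (Sym2 V)) (hΛ : Λ ⊆ edgesIn G F) :
    Ex q Λ (fun S => ind (Rad S x n)) ≤ 4 * A / n := by
  have hA0 : 0 < A := lt_of_lt_of_le one_pos hA1
  have hn0 : (0 : ℝ) < n := by exact_mod_cast hn
  set k := Nat.log 4 n with hk
  have h4 : 4 ^ k ≤ n := Nat.pow_log_le_self 4 (by omega)
  have h5 : n < 4 ^ (k + 1) := Nat.lt_pow_succ_log_self (by norm_num) n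
  have h6 := rad_pow (G := G) h0 h1 hC hA1 hA2 htail k x F Λ hΛ
  have h7 : Ex q Λ (fun S => ind (Rad S x n)) ≤ Ex q Λ (fun S => ind (Rad S x (4 ^ k))) :=
    Vale.Agent.P151.Ex_mono h0 h1 fun S _ => ind_mono (rad_mono_n h4)
  refine h7.trans (h6.trans ?_)
  have h8 : (n : ℝ) ≤ 4 * 4 ^ k := by
    have : (n : ℝ) < 4 ^ (k + 1) := by exact_mod_cast h5
    rw [pow_succ] at this
    linarith only [this]
  have h9 : (0 : ℝ) < 4 ^ k := by positivity
  rw [div_le_div_iff₀ h9 hn0]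
  nlinarith only [h8, hA0]

/-- Exploration up to level `j + 1`. -/
theorem rad_level {p : ℝ} (h0 : 0 ≤ p) (h1 : p ≤ 1) {g : ℝ} (hg : 0 ≤ g) {s : ℕ} (hs : 1 ≤ s)
    (hind : ∀ (x : V) (F : Finset V) (Λ : Finset (Sym2 V)), Λ ⊆ edgesIn G F →
      Ex p Λ (fun S => ind (Rad S x s)) ≤ g) (j : ℕ)
    (x : V) (F : Finset V) (Λ : Finset (Sym2 V)) (hΛ : Λ ⊆ edgesIn G F) :
    Ex p Λ (fun S => ind (Rad S x (j + 1 + s))) ≤
      Ex p Λ (fun S => (lsz (fun n => bl S x n) (j + 1) : ℝ)) * g := by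
  classical
  set F' : Finset V := insert x F with hF'
  have hbl : ∀ S ⊆ Λ, ∀ n, bl S x n ⊆ (F' : Set V) := by
    intro S hS n y hy
    refine Vale.Agent.P151.Cn_closed (S := S) (A := (F' : Set V)) ?_
      (Finset.mem_coe.2 (Finset.mem_insert_self x F)) (Cn_of_mem_bl hy)
    intro u _ v huv
    exact Finset.mem_coe.2 (Finset.mem_insert_of_mem
      (Vale.Agent.P151.mk_mem_edgesIn.1 (hΛ (hS huv))).2.2)
  set W : (ℕ → Set V) → Finset (Sym2 V) → ℝ := fun a U =>
    ∑ v ∈ F', ind (v ∈ a (j + 1) ∧ v ∉ a j) * ind (Rad U v s) with hW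
  have hW0 : ∀ a U, 0 ≤ W a U := fun a U => Finset.sum_nonneg fun v _ =>
    mul_nonneg (ind_nonneg _) (ind_nonneg _)
  have e1 : Ex p Λ (fun S => ind (Rad S x (j + 1 + s))) ≤
      Ex p Λ (fun S => W (bdat x j S) (S ∩ offE Λ (bdat x j S j))) := by
    refine Vale.Agent.P151.Ex_mono h0 h1 fun S hS => ?_
    by_cases hR : Rad S x (j + 1 + s)
    · rw [ind_true hR]
      obtain ⟨y, hxy, hy⟩ := (rad_iff (by omega)).1 hR
      have hyj : y ∉ bl S x j := fun hc => hy (bl_mono_n (by omega) hc)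
      obtain ⟨v, hv1, hv2, hv3⟩ := exists_level hS hxy hyj
      have hbj : bdat x j S j = bl S x j := by
        unfold bdat; rw [min_eq_left (Nat.le_succ j)]
      have hbj1 : bdat x j S (j + 1) = bl S x (j + 1) := by
        unfold bdat; rw [min_self]
      have hRv : Rad (S ∩ offE Λ (bl S x j)) v s := by
        rw [rad_iff hs]
        refine ⟨y, hv3, fun hc => hy ?_⟩
        have h5 := bl_trans hv1 (bl_mono_S Finset.inter_subset_left v _ hc)
        exact bl_mono_n (by omega) h5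
      simp only [hW]
      rw [hbj, hbj1]
      refine le_trans ?_ (Finset.single_le_sum (f := fun v =>
        ind (v ∈ bl S x (j + 1) ∧ v ∉ bl S x j) * ind (Rad (S ∩ offE Λ (bl S x j)) v s))
        (fun v _ => mul_nonneg (ind_nonneg _) (ind_nonneg _)) (Finset.mem_coe.1 (hbl S hS _ hv1)))
      rw [ind_true ⟨hv1, hv2⟩, ind_true hRv, one_mul]
    · rw [ind_false hR]
      exact hW0 _ _
  refine e1.trans ?_
  rw [explore_gen p Λ (bdat x j) (fun a => a j) (bdat_union Λ x j) W,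
    ← Vale.Agent.P151.Ex_mul_const]
  refine Vale.Agent.P151.Ex_mono h0 h1 fun S hS => ?_
  simp only [hW]
  rw [Vale.Agent.P151.Ex_sum]
  have hbj : bdat x j S j = bl S x j := by
    unfold bdat; rw [min_eq_left (Nat.le_succ j)]
  have hbj1 : bdat x j S (j + 1) = bl S x (j + 1) := by
    unfold bdat; rw [min_self]
  rw [hbj, hbj1]
  have e3 : ∀ v ∈ F', Ex p Λ (fun T => ind (v ∈ bl S x (j + 1) ∧ v ∉ bl S x j) *
      ind (Rad (T ∩ offE Λ (bl S x j)) v s)) ≤
      ind (v ∈ bl S x (j + 1) ∧ v ∉ bl S x j) * g := by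
    intro v _
    rw [Vale.Agent.P151.Ex_const_mul,
      Ex_offE p Λ (bl S x j) (fun U => ind (Rad U v s))]
    exact mul_le_mul_of_nonneg_left
      (hind v F _ ((offE_subset Λ _).trans hΛ)) (ind_nonneg _)
  refine (Finset.sum_le_sum e3).trans ?_
  rw [← Finset.sum_mul]
  refine mul_le_mul_of_nonneg_right ?_ hg
  have e5 : ∑ v ∈ F', ind (v ∈ bl S x (j + 1) ∧ v ∉ bl S x j) =
      ((F'.filter fun v => v ∈ bl S x (j + 1) ∧ v ∉ bl S x j).card : ℝ) := by
    rw [Finset.card_filter, Nat.cast_sum]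
    refine Finset.sum_congr rfl fun v _ => ?_
    by_cases hv : v ∈ bl S x (j + 1) ∧ v ∉ bl S x j
    · rw [ind_true hv, if_pos hv, Nat.cast_one]
    · rw [ind_false hv, if_neg hv, Nat.cast_zero]
  rw [e5]
  unfold lsz
  simp only [Nat.add_sub_cancel]
  rw [← Set.ncard_coe_finset, Nat.cast_le]
  refine Set.ncard_le_ncard ?_ ((bl_finite S x (j + 1)).subset Set.sdiff_subset)
  intro v hv
  exact (Finset.mem_filter.1 (Finset.mem_coe.1 hv)).2

/-- One step of length `2 r`: the gain is the mean cluster size over `r`. -/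
theorem rad_gain {p X : ℝ} (h0 : 0 ≤ p) (h1 : p ≤ 1)
    (hX : ∀ (x : V) (F : Finset V), Ex p (edgesIn G F) (fun S => (csz S x : ℝ)) ≤ X)
    {g : ℝ} (hg : 0 ≤ g) {s : ℕ} (hs : 1 ≤ s)
    (hind : ∀ (x : V) (F : Finset V) (Λ : Finset (Sym2 V)), Λ ⊆ edgesIn G F →
      Ex p Λ (fun S => ind (Rad S x s)) ≤ g) (r : ℕ)
    (x : V) (F : Finset V) (Λ : Finset (Sym2 V)) (hΛ : Λ ⊆ edgesIn G F) :
    (r : ℝ) * Ex p Λ (fun S => ind (Rad S x (2 * r + s))) ≤ X * g := by
  have e1 : ∀ j ∈ Finset.Ico r (2 * r), Ex p Λ (fun S => ind (Rad S x (2 * r + s))) ≤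
      Ex p Λ (fun S => (lsz (fun n => bl S x n) (j + 1) : ℝ)) * g := by
    intro j hj
    rw [Finset.mem_Ico] at hj
    refine le_trans ?_ (rad_level h0 h1 hg hs hind j x F Λ hΛ)
    exact Vale.Agent.P151.Ex_mono h0 h1 fun S _ => ind_mono (rad_mono_n (by omega))
  have e2 := Finset.sum_le_sum e1
  rw [Finset.sum_const, Nat.card_Ico, nsmul_eq_mul, ← Finset.sum_mul,
    ← Vale.Agent.P151.Ex_sum] at e2
  have e3 : ((2 * r - r : ℕ) : ℝ) = r := by
    congr 1
    omega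
  rw [e3] at e2
  refine e2.trans (mul_le_mul_of_nonneg_right ?_ hg)
  have e4 : Ex p Λ (fun S => ∑ j ∈ Finset.Ico r (2 * r), (lsz (fun n => bl S x n) (j + 1) : ℝ)) ≤
      Ex p Λ (fun S => (csz S x : ℝ)) := by
    refine Vale.Agent.P151.Ex_mono h0 h1 fun S _ => ?_
    have h2 := sum_lsz_le S x r
    have h3 : ∑ i ∈ Finset.Ico (r + 1) (2 * r + 1), lsz (fun n => bl S x n) i =
        ∑ j ∈ Finset.Ico r (2 * r), lsz (fun n => bl S x n) (j + 1) := by
      exact (Finset.sum_Ico_add' (fun i => lsz (fun n => bl S x n) i) r (2 * r) 1).symm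
    rw [h3] at h2
    exact_mod_cast h2
  refine e4.trans ((Vale.Agent.P151.Ex_mono_set h0 h1 hΛ ?_).trans (hX x F))
  intro S T h
  exact Nat.cast_le.2 (Vale.Agent.P151.csz_mono h x)

/-- Iteration of the step. -/
theorem rad_iter {p X K : ℝ} (h0 : 0 ≤ p) (h1 : p ≤ 1)
    (hX : ∀ (x : V) (F : Finset V), Ex p (edgesIn G F) (fun S => (csz S x : ℝ)) ≤ X)
    (hK : 0 ≤ K) {r : ℕ} (hr : 1 ≤ r) (hrX : 2 * X ≤ r)
    (hbase : ∀ n : ℕ, 1 ≤ n → ∀ (x : V) (F : Finset V) (Λ : Finset (Sym2 V)), Λ ⊆ edgesIn G F →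
      Ex p Λ (fun S => ind (Rad S x n)) ≤ K / n) {s : ℕ} (hs : 1 ≤ s) (j : ℕ) :
    ∀ (x : V) (F : Finset V) (Λ : Finset (Sym2 V)), Λ ⊆ edgesIn G F →
      Ex p Λ (fun S => ind (Rad S x (j * (2 * r) + s))) ≤ (1 / 2) ^ j * (K / s) := by
  induction j with
  | zero =>
    intro x F Λ hΛ
    rw [Nat.zero_mul, Nat.zero_add, pow_zero, one_mul]
    exact hbase s hs x F Λ hΛ
  | succ j ih =>
    intro x F Λ hΛ
    have hr0 : (0 : ℝ) < r := by exact_mod_cast hr
    have hg : 0 ≤ (1 / 2 : ℝ) ^ j * (K / s) := by positivity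
    have h2 := rad_gain h0 h1 hX hg (s := j * (2 * r) + s) (by omega) ih r x F Λ hΛ
    have h3 : 2 * r + (j * (2 * r) + s) = (j + 1) * (2 * r) + s := by ring
    rw [h3] at h2
    have h4 : X * ((1 / 2 : ℝ) ^ j * (K / s)) ≤ r / 2 * ((1 / 2 : ℝ) ^ j * (K / s)) :=
      mul_le_mul_of_nonneg_right (by linarith only [hrX]) hg
    have h5 := h2.trans h4
    rw [pow_succ]
    have h6 : (r : ℝ) * Ex p Λ (fun S => ind (Rad S x ((j + 1) * (2 * r) + s))) ≤
        r * ((1 / 2) ^ j * (1 / 2) * (K / s)) := by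
      refine h5.trans (le_of_eq ?_)
      ring
    exact le_of_mul_le_mul_left h6 hr0

/-- The intrinsic one-arm upper bound below `p_c`. -/
theorem radSub [Infinite V] [G.LocallyFinite] (hG : G.Connected) (hqt : IsQuasiTransitive G)
    (hna : 0 < vertexCheeger G) (hU : TailUp G) : RadSub G := by
  have hne : Nonempty V := hG.nonempty
  have hpc0 := pc_pos (G := G) hG hqt
  have hpc1 := pc_lt_one (G := G) hG hqt hna
  obtain ⟨C, hC, htail⟩ := hU
  obtain ⟨C₁, hC₁, hchi⟩ := chi_upper (G := G) hG hqt hna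
  set A := max 1 (512 * C ^ 2) with hA
  have hA1 : 1 ≤ A := le_max_left _ _
  have hA2 : 512 * C ^ 2 ≤ A := le_max_right _ _
  have hA0 : 0 < A := lt_of_lt_of_le one_pos hA1
  set c : ℝ := 1 / (8 * (2 * C₁ + 1)) with hc
  have hc0 : 0 < c := by positivity
  refine ⟨c, 16 * A, hc0, by positivity, fun q hq0 hq n hn x F Λ hΛ => ?_⟩
  have hq1 : q ≤ 1 := hq.trans hpc1.le
  have hn0 : (0 : ℝ) < n := by exact_mod_cast hn
  have hbase : ∀ n : ℕ, 1 ≤ n → ∀ (x : V) (F : Finset V) (Λ : Finset (Sym2 V)),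
      Λ ⊆ edgesIn G F → Ex q Λ (fun S => ind (Rad S x n)) ≤ 4 * A / n :=
    fun n hn x F Λ hΛ => rad_all hq0 hq1 hC hA1 hA2 (fun n hn x F =>
      (Vale.Agent.P151.Ex_mono_p hq0 hq hpc1.le (edgesIn G F) (tail_mono n x)).trans
        (htail n hn x F)) n hn x F Λ hΛ
  rcases hq.lt_or_eq with hlt | heq
  · set u : ℝ := pc G - q with hu
    have hu0 : 0 < u := by linarith only [hu, hlt]
    have hu1 : u ≤ 1 := by linarith only [hu, hpc1, hq0]
    have hs : Sub G q := sub_of_lt_pc hG hqt hq0 hlt hq1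
    have hX : ∀ (x : V) (F : Finset V),
        Ex q (edgesIn G F) (fun S => (csz S x : ℝ)) ≤ C₁ / u := fun x F =>
      (csz_le_chi hs x F).trans (hchi q hq0 hlt)
    set r : ℕ := ⌈2 * (C₁ / u)⌉₊ with hr
    have hCu : 0 < 2 * (C₁ / u) := by positivity
    have hr1 : 1 ≤ r := Nat.one_le_iff_ne_zero.2 (Nat.ceil_pos.2 hCu).ne'
    have hr0 : (0 : ℝ) < r := by exact_mod_cast hr1
    have hrX : 2 * (C₁ / u) ≤ r := Nat.le_ceil _
    have hrub : (r : ℝ) ≤ (2 * C₁ + 1) / u := by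
      have h2 : (r : ℝ) < 2 * (C₁ / u) + 1 := Nat.ceil_lt_add_one hCu.le
      have h3 : 1 ≤ 1 / u := by
        rw [le_div_iff₀ hu0]
        linarith only [hu1]
      have h4 : (2 * C₁ + 1) / u = 2 * (C₁ / u) + 1 / u := by ring
      rw [h4]
      linarith only [h2, h3]
    set j : ℕ := n / (4 * r) with hj
    have hjn : j * (4 * r) ≤ n := Nat.div_mul_le_self n (4 * r)
    have hjn2 : n < (j + 1) * (4 * r) := by
      have := Nat.lt_div_mul_add (a := n) (b := 4 * r) (by omega)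
      rw [Nat.add_mul, Nat.one_mul]
      exact this
    set s : ℕ := n - j * (2 * r) with hsdef
    have hj2 : j * (4 * r) = 2 * (j * (2 * r)) := by ring
    have hs1 : 1 ≤ s := by omega
    have hs2 : n ≤ 2 * s := by omega
    have hns : j * (2 * r) + s = n := by omega
    have h2 := rad_iter (G := G) hq0 hq1 hX (by positivity : 0 ≤ 4 * A) hr1 hrX hbase hs1 j
      x F Λ hΛ
    rw [hns] at h2
    refine h2.trans ?_
    have hs0 : (0 : ℝ) < s := by exact_mod_cast hs1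
    have hs3 : (n : ℝ) ≤ 2 * s := by exact_mod_cast hs2
    have h3 : 4 * A / s ≤ 8 * A / n := by
      rw [div_le_div_iff₀ hs0 hn0]
      nlinarith only [hs3, hA0]
    -- the exponential factor
    have h4 : (1 / 2 : ℝ) ^ j ≤ 2 * Real.exp (-(c * u * n)) := by
      have h5 : (1 / 2 : ℝ) ≤ Real.exp (-(1 / 2)) := by
        have := Real.add_one_le_exp (-(1 / 2) : ℝ)
        linarith only [this]
      have h6 : (1 / 2 : ℝ) ^ j ≤ Real.exp (-(1 / 2)) ^ j :=
        pow_le_pow_left₀ (by norm_num) h5 j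
      rw [← Real.exp_nat_mul] at h6
      have h7 : (n : ℝ) < (j + 1) * (4 * r) := by exact_mod_cast hjn2
      have h8 : c * u * n ≤ (j + 1) / 2 := by
        have h9 : r * u ≤ 2 * C₁ + 1 := by
          rw [le_div_iff₀ hu0] at hrub
          exact hrub
        have hD : 0 < 2 * C₁ + 1 := by linarith only [hC₁]
        have h10 : c * u * n ≤ c * u * ((j + 1) * (4 * r)) :=
          mul_le_mul_of_nonneg_left h7.le (by positivity)
        have h11 : c * u * ((j + 1) * (4 * r)) = c * (4 * (j + 1)) * (r * u) := by ring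
        have h12 : c * (4 * (j + 1)) * (r * u) ≤ c * (4 * (j + 1)) * (2 * C₁ + 1) :=
          mul_le_mul_of_nonneg_left h9 (by positivity)
        have h13 : c * (4 * (j + 1)) * (2 * C₁ + 1) = (j + 1) / 2 := by
          rw [hc]
          field_simp
          ring
        linarith only [h10, h11, h12, h13]
      have h9 : Real.exp ((j : ℝ) * -(1 / 2)) ≤ Real.exp (1 / 2) * Real.exp (-(c * u * n)) := by
        rw [← Real.exp_add]
        exact Real.exp_le_exp.2 (by linarith only [h8])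
      have h10 : Real.exp (1 / 2) ≤ 2 := by
        have h11 : Real.exp (1 / 2) * Real.exp (-(1 / 2)) = 1 := by
          rw [← Real.exp_add, add_neg_cancel, Real.exp_zero]
        nlinarith only [h5, h11, Real.exp_pos (1 / 2 : ℝ)]
      have h11 : Real.exp (1 / 2) * Real.exp (-(c * u * n)) ≤ 2 * Real.exp (-(c * u * n)) :=
        mul_le_mul_of_nonneg_right h10 (Real.exp_pos _).le
      linarith only [h6, h9, h11]
    calc (1 / 2 : ℝ) ^ j * (4 * A / s)
        ≤ (2 * Real.exp (-(c * u * n))) * (8 * A / n) :=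
          mul_le_mul h4 h3 (by positivity) (by positivity)
      _ = 16 * A / n * Real.exp (-(c * u * n)) := by ring
  · rw [heq, sub_self, mul_zero, zero_mul, neg_zero, Real.exp_zero, mul_one]
    have h2 := hbase n hn x F Λ hΛ
    rw [heq] at h2
    refine h2.trans ?_
    exact div_le_div_of_nonneg_right (by linarith only [hA0]) hn0.le

end Vale.Agent.P165.H115
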